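import Vale.Agent.Lib.P368.Refl

/-! # Reflections and the exact block factorisation -/

namespace Vale.Agent.Lib.P368

open Matrix Finset

set_option linter.unusedSectionVars false

variable {ι : Type} [Fintype ι] [DecidableEq ι]

/-- reflection data `(T, q)`: rank-one projectors on `T`, the identity elsewhere -/
def ReflValid (r : Finset ι × (ι → M2)) : Prop :=
  (∀ j ∈ r.1, Pr (r.2 j)) ∧ ∀ j, j ∉ r.1 → r.2 j = 1

/-- the reflection `1 - 2 q` -/
noncomputable def reflOp (r : Finset ι × (ι → M2)) : Op ι := 1 - (2 : ℂ) • prodOp r.2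

theorem ReflValid.idem {r : Finset ι × (ι → M2)} (h : ReflValid r) (j : ι) :
    r.2 j * r.2 j = r.2 j := by
  by_cases hj : j ∈ r.1
  · exact (h.1 j hj).idem
  · rw [h.2 j hj, one_mul]

theorem ReflValid.herm {r : Finset ι × (ι → M2)} (h : ReflValid r) (j : ι) :
    (r.2 j)ᴴ = r.2 j := by
  by_cases hj : j ∈ r.1
  · exact (h.1 j hj).herm
  · rw [h.2 j hj, Matrix.conjTranspose_one]

theorem reflOp_herm {r : Finset ι × (ι → M2)} (h : ReflValid r) : (reflOp r)ᴴ = reflOp r := by
  unfold reflOp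
  rw [Matrix.conjTranspose_sub, Matrix.conjTranspose_one, Matrix.conjTranspose_smul,
    prodOp_conjTranspose]
  simp only [h.herm]
  simp

theorem reflOp_mul_self {r : Finset ι × (ι → M2)} (h : ReflValid r) :
    reflOp r * reflOp r = 1 := by
  unfold reflOp
  have : prodOp r.2 * prodOp r.2 = prodOp r.2 := by
    rw [prodOp_mul]
    simp only [h.idem]
  simp only [sub_mul, mul_sub, one_mul, mul_one, Matrix.smul_mul, Matrix.mul_smul, this, smul_smul]
  module

theorem refl_conj_prodOp (r : Finset ι × (ι → M2)) (B : ι → M2) :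
    reflOp r * prodOp B * reflOp r = prodOp B - (2 : ℂ) • prodOp (fun j => r.2 j * B j)
      - (2 : ℂ) • prodOp (fun j => B j * r.2 j)
      + (4 : ℂ) • prodOp (fun j => r.2 j * B j * r.2 j) := by
  unfold reflOp
  simp only [sub_mul, mul_sub, one_mul, mul_one, Matrix.smul_mul, Matrix.mul_smul, prodOp_mul,
    smul_smul, smul_sub]
  module

/-- product of a list of reflections -/
noncomputable def rlistOp (l : List (Finset ι × (ι → M2))) : Op ι := (l.map reflOp).prod

/-- a layer of reflections: valid, pairwise disjoint supports -/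
def rlistValid (l : List (Finset ι × (ι → M2))) : Prop :=
  (∀ r ∈ l, ReflValid r) ∧ l.Pairwise (fun r s => Disjoint r.1 s.1)

/-- Heisenberg evolution through a list of reflections -/
noncomputable def conjBy (l : List (Finset ι × (ι → M2))) (M : Op ι) : Op ι :=
  (rlistOp l)ᴴ * M * rlistOp l

theorem conjBy_nil (M : Op ι) : conjBy [] M = M := by
  simp [conjBy, rlistOp]

theorem conjBy_cons {r : Finset ι × (ι → M2)} (h : ReflValid r)
    (l : List (Finset ι × (ι → M2))) (M : Op ι) :
    conjBy (r :: l) M = conjBy l (reflOp r * M * reflOp r) := by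
  simp only [conjBy, rlistOp, List.map_cons, List.prod_cons, Matrix.conjTranspose_mul,
    reflOp_herm h, Matrix.mul_assoc]

theorem conjBy_add (l : List (Finset ι × (ι → M2))) (M N : Op ι) :
    conjBy l (M + N) = conjBy l M + conjBy l N := by
  simp [conjBy, mul_add, add_mul]

theorem conjBy_sub (l : List (Finset ι × (ι → M2))) (M N : Op ι) :
    conjBy l (M - N) = conjBy l M - conjBy l N := by
  simp [conjBy, mul_sub, sub_mul]

theorem conjBy_smul (l : List (Finset ι × (ι → M2))) (c : ℂ) (M : Op ι) :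
    conjBy l (c • M) = c • conjBy l M := by
  simp [conjBy]

/-- scalar evaluation restricted to the sites of `S` -/
noncomputable def Ev (inp : ι → Bool) (S : Finset ι) :
    List (Finset ι × (ι → M2)) → (ι → M2) → ℂ
  | [], B => ∏ j ∈ S, str (inp j) (B j)
  | r :: l, B => Ev inp S l B - 2 * Ev inp S l (fun j => r.2 j * B j)
      - 2 * Ev inp S l (fun j => B j * r.2 j) + 4 * Ev inp S l (fun j => r.2 j * B j * r.2 j)

theorem Phi_conjBy (inp : ι → Bool) (l : List (Finset ι × (ι → M2)))
    (hl : ∀ r ∈ l, ReflValid r) (B : ι → M2) :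
    Phi inp (conjBy l (prodOp B)) = Ev inp Finset.univ l B := by
  induction l generalizing B with
  | nil => rw [conjBy_nil, Phi_prodOp]; rfl
  | cons r l ih =>
    have hr := hl r (List.mem_cons_self)
    have hl' : ∀ s ∈ l, ReflValid s := fun s hs => hl s (List.mem_cons_of_mem _ hs)
    rw [conjBy_cons hr, refl_conj_prodOp, conjBy_add, conjBy_sub, conjBy_sub, conjBy_smul,
      conjBy_smul, conjBy_smul, Phi_add, Phi_sub, Phi_sub, Phi_smul, Phi_smul, Phi_smul,
      ih hl', ih hl', ih hl', ih hl']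
    rfl

theorem Ev_congr (inp : ι → Bool) (S : Finset ι) (l : List (Finset ι × (ι → M2)))
    (B B' : ι → M2) (h : ∀ j ∈ S, B j = B' j) : Ev inp S l B = Ev inp S l B' := by
  induction l generalizing B B' with
  | nil =>
    simp only [Ev]
    exact Finset.prod_congr rfl fun j hj => by rw [h j hj]
  | cons r l ih =>
    simp only [Ev]
    rw [ih B B' h, ih (fun j => r.2 j * B j) (fun j => r.2 j * B' j) (fun j hj => by
      simp only [h j hj]), ih (fun j => B j * r.2 j) (fun j => B' j * r.2 j) (fun j hj => by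
      simp only [h j hj]), ih (fun j => r.2 j * B j * r.2 j) (fun j => r.2 j * B' j * r.2 j)
      (fun j hj => by simp only [h j hj])]

theorem Ev_split (inp : ι → Bool) (S T : Finset ι) (hT : T ⊆ S)
    (l : List (Finset ι × (ι → M2))) (hl : ∀ r ∈ l, ReflValid r)
    (hd : ∀ r ∈ l, Disjoint T r.1) (B : ι → M2) :
    Ev inp S l B = (∏ j ∈ T, str (inp j) (B j)) * Ev inp (S \ T) l B := by
  induction l generalizing B with
  | nil =>
    simp only [Ev]
    rw [mul_comm, Finset.prod_sdiff hT]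
  | cons r l ih =>
    have hr := hl r (List.mem_cons_self)
    have hdr := hd r (List.mem_cons_self)
    have hl' : ∀ s ∈ l, ReflValid s := fun s hs => hl s (List.mem_cons_of_mem _ hs)
    have hd' : ∀ s ∈ l, Disjoint T s.1 := fun s hs => hd s (List.mem_cons_of_mem _ hs)
    have hq : ∀ j ∈ T, r.2 j = 1 := fun j hj => hr.2 j (Finset.disjoint_left.1 hdr hj)
    simp only [Ev]
    rw [ih hl' hd' B, ih hl' hd' (fun j => r.2 j * B j), ih hl' hd' (fun j => B j * r.2 j),
      ih hl' hd' (fun j => r.2 j * B j * r.2 j)]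
    have e1 : ∏ j ∈ T, str (inp j) (r.2 j * B j) = ∏ j ∈ T, str (inp j) (B j) :=
      Finset.prod_congr rfl fun j hj => by rw [hq j hj, one_mul]
    have e2 : ∏ j ∈ T, str (inp j) (B j * r.2 j) = ∏ j ∈ T, str (inp j) (B j) :=
      Finset.prod_congr rfl fun j hj => by rw [hq j hj, mul_one]
    have e3 : ∏ j ∈ T, str (inp j) (r.2 j * B j * r.2 j) = ∏ j ∈ T, str (inp j) (B j) :=
      Finset.prod_congr rfl fun j hj => by rw [hq j hj, mul_one, one_mul]
    rw [e1, e2, e3]
    ring

/-- the value of a block -/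
noncomputable def vblock (inp : ι → Bool) (r : Finset ι × (ι → M2)) (B : ι → M2) : ℂ :=
  ∏ j ∈ r.1, str (inp j) (B j) - 2 * ∏ j ∈ r.1, str (inp j) (r.2 j * B j)
    - 2 * ∏ j ∈ r.1, str (inp j) (B j * r.2 j)
    + 4 * ∏ j ∈ r.1, str (inp j) (r.2 j * B j * r.2 j)

theorem Ev_cons_eq (inp : ι → Bool) (S : Finset ι) (r : Finset ι × (ι → M2))
    (l : List (Finset ι × (ι → M2))) (hr : ReflValid r) (hrS : r.1 ⊆ S)
    (hl : ∀ s ∈ l, ReflValid s) (hd : ∀ s ∈ l, Disjoint r.1 s.1) (B : ι → M2) :
    Ev inp S (r :: l) B = vblock inp r B * Ev inp (S \ r.1) l B := by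
  simp only [Ev]
  rw [Ev_split inp S r.1 hrS l hl hd B, Ev_split inp S r.1 hrS l hl hd (fun j => r.2 j * B j),
    Ev_split inp S r.1 hrS l hl hd (fun j => B j * r.2 j),
    Ev_split inp S r.1 hrS l hl hd (fun j => r.2 j * B j * r.2 j)]
  have hq : ∀ j ∈ S \ r.1, r.2 j = 1 := fun j hj => hr.2 j (Finset.mem_sdiff.1 hj).2
  rw [Ev_congr inp (S \ r.1) l (fun j => r.2 j * B j) B (fun j hj => by
      simp only [hq j hj, one_mul]),
    Ev_congr inp (S \ r.1) l (fun j => B j * r.2 j) B (fun j hj => by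
      simp only [hq j hj, mul_one]),
    Ev_congr inp (S \ r.1) l (fun j => r.2 j * B j * r.2 j) B (fun j hj => by
      simp only [hq j hj, mul_one, one_mul])]
  unfold vblock
  ring

/-- the general product bound -/
theorem Ev_bound (inp : ι → Bool) (o : ι) (g : ι → ℝ) (hg : ∀ j, 0 ≤ g j) (B : ι → M2)
    (hsite : ∀ j, ‖str (inp j) (B j)‖ ≤ g j)
    (l : List (Finset ι × (ι → M2))) (hl : rlistValid l)
    (hblock : ∀ r ∈ l, ‖vblock inp r B‖ ≤ (if o ∈ r.1 then 9 else 1) * ∏ j ∈ r.1, g j)
    (S : Finset ι) (hS : ∀ r ∈ l, r.1 ⊆ S) :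
    ‖Ev inp S l B‖ ≤ (if o ∈ S then 9 else 1) * ∏ j ∈ S, g j := by
  induction l generalizing S with
  | nil =>
    simp only [Ev]
    rw [norm_prod]
    have h1 : ∏ j ∈ S, ‖str (inp j) (B j)‖ ≤ ∏ j ∈ S, g j :=
      Finset.prod_le_prod (fun j _ => norm_nonneg _) (fun j _ => hsite j)
    have h2 : 0 ≤ ∏ j ∈ S, g j := Finset.prod_nonneg fun j _ => hg j
    split_ifs <;> linarith
  | cons r l ih =>
    have hr := hl.1 r (List.mem_cons_self)
    have hl' : rlistValid l :=
      ⟨fun s hs => hl.1 s (List.mem_cons_of_mem _ hs), (List.pairwise_cons.1 hl.2).2⟩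
    have hd : ∀ s ∈ l, Disjoint r.1 s.1 := (List.pairwise_cons.1 hl.2).1
    have hrS := hS r (List.mem_cons_self)
    rw [Ev_cons_eq inp S r l hr hrS hl'.1 hd B, norm_mul]
    have hb := hblock r (List.mem_cons_self)
    have hi := ih hl' (fun s hs => hblock s (List.mem_cons_of_mem _ hs)) (S \ r.1)
      (fun s hs => by
        intro j hj
        refine Finset.mem_sdiff.2 ⟨hS s (List.mem_cons_of_mem _ hs) hj, ?_⟩
        exact fun hj' => Finset.disjoint_left.1 (hd s hs) hj' hj)
    have hp : (∏ j ∈ r.1, g j) * ∏ j ∈ S \ r.1, g j = ∏ j ∈ S, g j := by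
      rw [mul_comm, Finset.prod_sdiff hrS]
    have p1 : 0 ≤ ∏ j ∈ r.1, g j := Finset.prod_nonneg fun j _ => hg j
    have p2 : 0 ≤ ∏ j ∈ S \ r.1, g j := Finset.prod_nonneg fun j _ => hg j
    have hmul := mul_le_mul hb hi (norm_nonneg _) (by split_ifs <;> positivity)
    refine hmul.trans ?_
    rw [← hp]
    by_cases ho : o ∈ r.1
    · have ho1 : o ∈ S := hrS ho
      have ho2 : o ∉ S \ r.1 := fun h => (Finset.mem_sdiff.1 h).2 ho
      simp only [ho, ho1, ho2, if_true, if_false]
      apply le_of_eq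
      ring
    · by_cases ho1 : o ∈ S
      · have ho2 : o ∈ S \ r.1 := Finset.mem_sdiff.2 ⟨ho1, ho⟩
        simp only [ho, ho1, ho2, if_true, if_false]
        apply le_of_eq
        ring
      · have ho2 : o ∉ S \ r.1 := fun h => ho1 (Finset.mem_sdiff.1 h).1
        simp only [ho, ho1, ho2, if_false]
        apply le_of_eq
        ring

end Vale.Agent.Lib.P368
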