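import Vale.Agent.Lib.P368.Block

/-! # Bounds for one block -/

namespace Vale.Agent.Lib.P368

open Matrix Finset

set_option linter.unusedSectionVars false

variable {ι : Type} [Fintype ι] [DecidableEq ι]

theorem site_bound0 {X : M2} (h : X = 1 ∨ K1 X) (inp : Bool) : ‖str inp X‖ ≤ hw inp := by
  rcases h with rfl | h
  · exact norm_str_one_le inp
  · exact h.norm_str_le inp

theorem site_k1_left {q X : M2} (hq : Pr q) (h : X = 1 ∨ K1 X) : K1 (q * X) := by
  rcases h with rfl | h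
  · rw [mul_one]; exact hq.k1
  · exact hq.k1.mul h

theorem site_k1_right {q X : M2} (hq : Pr q) (h : X = 1 ∨ K1 X) : K1 (X * q) := by
  rcases h with rfl | h
  · rw [one_mul]; exact hq.k1
  · exact h.mul hq.k1

theorem hw_nonneg (inp : Bool) : 0 ≤ hw inp := by cases inp <;> simp [hw]

theorem vblock_termwise (inp : ι → Bool) (r : Finset ι × (ι → M2)) (hr : ReflValid r)
    (B : ι → M2) (hB : ∀ j ∈ r.1, B j = 1 ∨ K1 (B j)) :
    ‖vblock inp r B‖ ≤ 9 * ∏ j ∈ r.1, hw (inp j) := by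
  have key : ∀ C : ι → M2, (∀ j ∈ r.1, ‖str (inp j) (C j)‖ ≤ hw (inp j)) →
      ‖∏ j ∈ r.1, str (inp j) (C j)‖ ≤ ∏ j ∈ r.1, hw (inp j) := by
    intro C hC
    rw [norm_prod]
    exact Finset.prod_le_prod (fun j _ => norm_nonneg _) hC
  have k1 := key B (fun j hj => site_bound0 (hB j hj) _)
  have k2 := key (fun j => r.2 j * B j)
    (fun j hj => (site_k1_left (hr.1 j hj) (hB j hj)).norm_str_le _)
  have k3 := key (fun j => B j * r.2 j)
    (fun j hj => (site_k1_right (hr.1 j hj) (hB j hj)).norm_str_le _)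
  have k4 := key (fun j => r.2 j * B j * r.2 j)
    (fun j hj => ((site_k1_left (hr.1 j hj) (hB j hj)).mul (hr.1 j hj).k1).norm_str_le _)
  unfold vblock
  set a := ∏ j ∈ r.1, str (inp j) (B j)
  set b := ∏ j ∈ r.1, str (inp j) (r.2 j * B j)
  set c := ∏ j ∈ r.1, str (inp j) (B j * r.2 j)
  set d := ∏ j ∈ r.1, str (inp j) (r.2 j * B j * r.2 j)
  calc ‖a - 2 * b - 2 * c + 4 * d‖ ≤ ‖a - 2 * b - 2 * c‖ + ‖4 * d‖ := norm_add_le _ _
    _ ≤ (‖a - 2 * b‖ + ‖2 * c‖) + ‖4 * d‖ := by gcongr; exact norm_sub_le _ _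
    _ ≤ ((‖a‖ + ‖2 * b‖) + ‖2 * c‖) + ‖4 * d‖ := by gcongr; exact norm_sub_le _ _
    _ = ‖a‖ + 2 * ‖b‖ + 2 * ‖c‖ + 4 * ‖d‖ := by simp
    _ ≤ 9 * ∏ j ∈ r.1, hw (inp j) := by linarith

theorem prod_restrict (T : Finset ι) (f f' : ι → ℂ) (h1 : ∀ j ∈ T, f' j = f j)
    (h2 : ∀ j, j ∉ T → f' j = 1) : ∏ j, f' j = ∏ j ∈ T, f j := by
  rw [← Finset.prod_subset (Finset.subset_univ T) (fun j _ hj => h2 j hj)]
  exact Finset.prod_congr rfl h1

theorem vblock_eq_Phi (inp : ι → Bool) (r : Finset ι × (ι → M2)) (hr : ReflValid r)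
    (B : ι → M2) :
    vblock inp r B = Phi (fun j => if j ∈ r.1 then inp j else false)
      (reflOp r * prodOp (fun j => if j ∈ r.1 then B j else 1) * reflOp r) := by
  rw [refl_conj_prodOp, Phi_add, Phi_sub, Phi_sub, Phi_smul, Phi_smul, Phi_smul, Phi_prodOp,
    Phi_prodOp, Phi_prodOp, Phi_prodOp]
  unfold vblock
  rw [prod_restrict r.1 (fun j => str (inp j) (B j)) _ (fun j hj => by simp only [hj, if_true])
      (fun j hj => by simp only [hj, if_false, str_one]; simp),
    prod_restrict r.1 (fun j => str (inp j) (r.2 j * B j)) _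
      (fun j hj => by simp only [hj, if_true])
      (fun j hj => by simp only [hj, if_false, hr.2 j hj, mul_one, str_one]; simp),
    prod_restrict r.1 (fun j => str (inp j) (B j * r.2 j)) _
      (fun j hj => by simp only [hj, if_true])
      (fun j hj => by simp only [hj, if_false, hr.2 j hj, mul_one, str_one]; simp),
    prod_restrict r.1 (fun j => str (inp j) (r.2 j * B j * r.2 j)) _
      (fun j hj => by simp only [hj, if_true])
      (fun j hj => by simp only [hj, if_false, hr.2 j hj, mul_one, str_one]; simp)]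

theorem conj_proj (r : Finset ι × (ι → M2)) (hr : ReflValid r) (B : ι → M2)
    (h1 : ∀ j, (B j)ᴴ = B j) (h2 : ∀ j, B j * B j = B j) :
    (reflOp r * prodOp B * reflOp r)ᴴ = reflOp r * prodOp B * reflOp r ∧
    (reflOp r * prodOp B * reflOp r) * (reflOp r * prodOp B * reflOp r)
      = reflOp r * prodOp B * reflOp r := by
  constructor
  · rw [Matrix.conjTranspose_mul, Matrix.conjTranspose_mul, reflOp_herm hr,
      prodOp_conjTranspose]
    simp only [h1, Matrix.mul_assoc]
  · have e : prodOp B * prodOp B = prodOp B := by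
      rw [prodOp_mul]; simp only [h2]
    calc (reflOp r * prodOp B * reflOp r) * (reflOp r * prodOp B * reflOp r)
        = reflOp r * prodOp B * (reflOp r * reflOp r) * prodOp B * reflOp r := by
          simp only [Matrix.mul_assoc]
      _ = reflOp r * (prodOp B * prodOp B) * reflOp r := by
          rw [reflOp_mul_self hr, Matrix.mul_one]
          simp only [Matrix.mul_assoc]
      _ = _ := by rw [e]

theorem vblock_proj (inp : ι → Bool) (r : Finset ι × (ι → M2)) (hr : ReflValid r)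
    (B : ι → M2) (hB : ∀ j ∈ r.1, B j = 1 ∨ Pr (B j)) :
    ‖vblock inp r B‖ ≤ 1 ∧ ((∃ j ∈ r.1, inp j = true) → ‖vblock inp r B‖ ≤ 1 / 2) := by
  rw [vblock_eq_Phi inp r hr B]
  have h1 : ∀ j, (if j ∈ r.1 then B j else 1 : M2)ᴴ = (if j ∈ r.1 then B j else 1 : M2) := by
    intro j
    by_cases hj : j ∈ r.1
    · simp only [hj, if_true]
      rcases hB j hj with h | h
      · rw [h, Matrix.conjTranspose_one]
      · exact h.herm
    · simp only [hj, if_false, Matrix.conjTranspose_one]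
  have h2 : ∀ j, (if j ∈ r.1 then B j else 1 : M2) * (if j ∈ r.1 then B j else 1 : M2)
      = (if j ∈ r.1 then B j else 1 : M2) := by
    intro j
    by_cases hj : j ∈ r.1
    · simp only [hj, if_true]
      rcases hB j hj with h | h
      · rw [h, one_mul]
      · exact h.idem
    · simp only [hj, if_false, one_mul]
  obtain ⟨p1, p2⟩ := conj_proj r hr _ h1 h2
  refine ⟨norm_Phi_proj_le_one _ _ p1 p2, ?_⟩
  rintro ⟨j, hj, hij⟩
  exact norm_Phi_proj_le_half _ j (by simp only [hj, if_true, hij]) _ p1 p2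

/-- `2 ^ (-1/4)` -/
noncomputable def gam : ℝ := (1 / 2 : ℝ) ^ (1 / 4 : ℝ)

theorem gam_pos : 0 < gam := by unfold gam; positivity

theorem gam_pow_four : gam ^ 4 = 1 / 2 := by
  unfold gam
  rw [← Real.rpow_natCast, ← Real.rpow_mul (by norm_num)]
  norm_num

theorem gam_le : gam ≤ 17 / 20 := by
  by_contra h
  push Not at h
  have : (17 / 20 : ℝ) ^ 4 < gam ^ 4 := pow_lt_pow_left₀ h (by norm_num) (by norm_num)
  rw [gam_pow_four] at this
  norm_num at this

theorem gam_le_one : gam ≤ 1 := gam_le.trans (by norm_num)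

theorem half_le_gam : 1 / 2 ≤ gam := by
  have h := gam_pow_four
  have h1 := gam_le_one
  have h0 := gam_pos
  have : gam ^ 4 ≤ gam ^ 1 := pow_le_pow_of_le_one h0.le h1 (by norm_num)
  rw [h, pow_one] at this
  exact this

theorem numeric_block (m : ℕ) (v : ℝ) (h1 : v ≤ 1) (h2 : 1 ≤ m → v ≤ 1 / 2)
    (h3 : v ≤ 9 * (1 / 2) ^ m) : v ≤ gam ^ m := by
  have g0 := gam_pos
  have g1 := gam_le_one
  rcases Nat.eq_zero_or_pos m with rfl | hm
  · simpa using h1
  · by_cases h4 : m ≤ 4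
    · have : gam ^ 4 ≤ gam ^ m := pow_le_pow_of_le_one g0.le g1 h4
      rw [gam_pow_four] at this
      exact (h2 hm).trans this
    · push Not at h4
      refine h3.trans ?_
      have e : (1 / 2 : ℝ) ^ m = gam ^ (3 * m) * gam ^ m := by
        rw [← gam_pow_four, ← pow_mul, ← pow_add]
        congr 1
        ring
      rw [e]
      have e2 : gam ^ (3 * m) ≤ gam ^ 15 := pow_le_pow_of_le_one g0.le g1 (by omega)
      have e3 : gam ^ 15 = (gam ^ 4) ^ 3 * gam ^ 3 := by ring
      have e4 : gam ^ 3 ≤ (17 / 20 : ℝ) ^ 3 := pow_le_pow_left₀ g0.le gam_le 3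
      rw [gam_pow_four] at e3
      have e5 : 9 * gam ^ (3 * m) ≤ 1 := by
        rw [e3] at e2
        norm_num at e4 e2 ⊢
        linarith
      have e6 : 0 ≤ gam ^ m := by positivity
      nlinarith

/-- the weight of a site in the final bound -/
noncomputable def gw (inp : Bool) : ℝ := if inp then gam else 1

theorem gw_nonneg (inp : Bool) : 0 ≤ gw inp := by
  cases inp
  · simp [gw]
  · simp [gw, gam_pos.le]

theorem hw_le_gw (inp : Bool) : hw inp ≤ gw inp := by
  cases inp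
  · simp [gw, hw]
  · simpa [gw, hw] using half_le_gam

theorem prod_hw (inp : ι → Bool) (T : Finset ι) :
    ∏ j ∈ T, hw (inp j) = (1 / 2) ^ (T.filter (fun j => inp j = true)).card := by
  unfold hw
  rw [Finset.prod_ite]
  simp

theorem prod_gw (inp : ι → Bool) (T : Finset ι) :
    ∏ j ∈ T, gw (inp j) = gam ^ (T.filter (fun j => inp j = true)).card := by
  unfold gw
  rw [Finset.prod_ite]
  simp

theorem block_bound_gen (inp : ι → Bool) (r : Finset ι × (ι → M2)) (hr : ReflValid r)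
    (B : ι → M2) (hB : ∀ j ∈ r.1, B j = 1 ∨ K1 (B j)) :
    ‖vblock inp r B‖ ≤ 9 * ∏ j ∈ r.1, gw (inp j) := by
  refine (vblock_termwise inp r hr B hB).trans ?_
  gcongr with j hj
  · exact fun j _ => hw_nonneg _
  · exact hw_le_gw _

theorem block_bound_proj (inp : ι → Bool) (r : Finset ι × (ι → M2)) (hr : ReflValid r)
    (B : ι → M2) (hB : ∀ j ∈ r.1, B j = 1 ∨ Pr (B j)) :
    ‖vblock inp r B‖ ≤ ∏ j ∈ r.1, gw (inp j) := by
  rw [prod_gw]
  obtain ⟨h1, h2⟩ := vblock_proj inp r hr B hB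
  have h3 := vblock_termwise inp r hr B (fun j hj => (hB j hj).imp id Pr.k1)
  rw [prod_hw] at h3
  refine numeric_block _ _ h1 (fun hm => h2 ?_) h3
  obtain ⟨j, hj⟩ := Finset.card_pos.1 (Nat.lt_of_lt_of_le Nat.zero_lt_one hm)
  exact ⟨j, (Finset.mem_filter.1 hj).1, (Finset.mem_filter.1 hj).2⟩

end Vale.Agent.Lib.P368
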