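import Vale.Agent.Lib.P368.Normal

/-! # The parity correlation as a signed ensemble functional, and the depth-two bound -/

namespace Vale.Agent.Lib.P368

open Matrix Finset

set_option linter.unusedSectionVars false

section general

variable {ι : Type} [Fintype ι] [DecidableEq ι]

/-- the basis vector `|b⟩` -/
def eb (b : Bool) : Bool → ℂ := fun c => if c = b then 1 else 0

theorem pr_eb (b : Bool) : Pr (ketbra (eb b) (eb b)) :=
  ⟨eb b, by cases b <;> simp [nsq, eb], rfl⟩

theorem eb_apply (b c d : Bool) :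
    ketbra (eb b) (eb b) c d = if c = b ∧ d = b then 1 else 0 := by
  cases b <;> cases c <;> cases d <;> simp [ketbra_apply, eb]

theorem proj_diag (o : ι) (b : Bool) : prodOp (atSite o (ketbra (eb b) (eb b)))
    = Matrix.diagonal (fun z : ι → Bool => if z o = b then (1 : ℂ) else 0) := by
  rw [← single_eq]
  ext x y
  show (if ∀ j, j ≠ o → x j = y j then ketbra (eb b) (eb b) (x o) (y o) else 0) = _
  rw [Matrix.diagonal_apply, eb_apply]
  by_cases hxy : x = y
  · subst hxy
    simp
  · rw [if_neg hxy]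
    by_cases h : ∀ j, j ≠ o → x j = y j
    · rw [if_pos h, if_neg]
      rintro ⟨h1, h2⟩
      apply hxy
      funext j
      by_cases hj : j = o
      · rw [hj, h1, h2]
      · exact h j hj
    · rw [if_neg h]

theorem heis_diag (U : Op ι) (o : ι) (b : Bool) (y : ι → Bool) :
    (Uᴴ * prodOp (atSite o (ketbra (eb b) (eb b))) * U) y y = ((outProb U o y b : ℝ) : ℂ) := by
  rw [proj_diag, Matrix.mul_apply]
  simp only [Matrix.mul_diagonal, Matrix.conjTranspose_apply]
  unfold outProb
  push_cast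
  refine Finset.sum_congr rfl fun z _ => ?_
  split_ifs
  · rw [mul_one]
    push_cast
    exact Complex.conj_mul' _
  · simp

theorem heis_bound (inp : ι → Bool) (o : ι) (b : Bool) (u : ι → M2)
    (l₂ l₁ : List (Finset ι × (ι → M2))) (hu : LocalU u) (h₂ : rlistValid l₂)
    (h₁ : rlistValid l₁) :
    ‖Phi inp ((prodOp u * (rlistOp l₂ * rlistOp l₁))ᴴ
      * prodOp (atSite o (ketbra (eb b) (eb b))) * (prodOp u * (rlistOp l₂ * rlistOp l₁)))‖
      ≤ 81 * gam ^ numInp inp := by
  have e1 : (prodOp u)ᴴ * prodOp (atSite o (ketbra (eb b) (eb b))) * prodOp u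
      = prodOp (atSite o ((u o)ᴴ * ketbra (eb b) (eb b) * u o)) := by
    rw [prodOp_conjTranspose, prodOp_mul, prodOp_mul]
    congr 1
    funext j
    by_cases hj : j = o
    · subst hj
      rw [atSite_self, atSite_self]
    · rw [atSite_ne _ _ hj, atSite_ne _ _ hj, Matrix.mul_one, hu.star_mul j]
  have e2 : (prodOp u * (rlistOp l₂ * rlistOp l₁))ᴴ
      * prodOp (atSite o (ketbra (eb b) (eb b))) * (prodOp u * (rlistOp l₂ * rlistOp l₁))
      = conjBy l₁ (conjBy l₂ (prodOp (atSite o ((u o)ᴴ * ketbra (eb b) (eb b) * u o)))) := by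
    rw [← e1]
    simp only [conjBy, Matrix.conjTranspose_mul, Matrix.mul_assoc]
  rw [e2]
  exact top_bound inp o _ ((pr_eb b).conj (hu o)) l₁ l₂ h₁ h₂

end general

/-- the sign of the parity -/
def sgn {n : ℕ} (x : Fin n → Bool) : ℝ := if parityBit x then -1 else 1

theorem prod_sign {n : ℕ} (x : Fin n → Bool) :
    ∏ i, (if x i then (-1 : ℝ) else 1) = sgn x := by
  have h1 : ∀ i, (if x i then (-1 : ℝ) else 1) = (-1) ^ (x i).toNat := by
    intro i
    cases x i <;> simp
  simp only [h1]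
  rw [Finset.prod_pow_eq_pow_sum]
  unfold sgn parityBit
  by_cases h : Odd (∑ i, (x i).toNat)
  · rw [h.neg_one_pow]
    simp [h]
  · rw [(Nat.not_odd_iff_even.1 h).neg_one_pow]
    simp [h]

theorem prod_wt_true {n : ℕ} (x : Fin n → Bool) : ∏ i, wt true (x i) = sgn x / 2 ^ n := by
  have h1 : ∀ i, wt true (x i) = (if x i then (-1 : ℝ) else 1) / 2 := by
    intro i
    cases x i <;> simp [wt]
    norm_num
  simp only [h1]
  rw [Finset.prod_div_distrib, prod_sign]
  simp

theorem coef_elim {n a : ℕ} (x : Fin n → Bool) (w : Fin a → Bool) :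
    coef (fun j : Fin n ⊕ Fin a => Sum.isLeft j) (Sum.elim x w)
      = (sgn x / 2 ^ n) * ∏ k, wt false (w k) := by
  unfold coef
  rw [Fintype.prod_sum_type]
  simp only [Sum.isLeft_inl, Sum.isLeft_inr, Sum.elim_inl, Sum.elim_inr]
  rw [prod_wt_true]

theorem Phi_sum {n a : ℕ} (M : Op (Fin n ⊕ Fin a)) :
    Phi (fun j : Fin n ⊕ Fin a => Sum.isLeft j) M
      = (∑ x : Fin n → Bool, (sgn x : ℂ) * M (initState x) (initState x)) / 2 ^ n := by
  unfold Phi
  rw [← (Equiv.sumArrowEquivProdArrow (Fin n) (Fin a) Bool).symm.sum_comp,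
    Fintype.sum_prod_type, Finset.sum_div]
  refine Finset.sum_congr rfl fun x _ => ?_
  rw [Finset.sum_eq_single (fun _ => false)]
  · show ((coef _ (Sum.elim x (fun _ => false)) : ℝ) : ℂ) * M (initState x) (initState x) = _
    rw [coef_elim]
    simp [wt]
    ring
  · intro w _ hw
    show ((coef _ (Sum.elim x w) : ℝ) : ℂ) * _ = 0
    rw [coef_elim]
    have : ∃ k, w k = true := by
      by_contra h
      push Not at h
      apply hw
      funext k
      simpa using h k
    obtain ⟨k, hk⟩ := this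
    have : ∏ k, wt false (w k) = 0 := by
      apply Finset.prod_eq_zero (Finset.mem_univ k)
      simp [wt, hk]
    rw [this]
    simp
  · intro h; exact absurd (Finset.mem_univ _) h

theorem numInp_sum (n a : ℕ) : gam ^ numInp (fun j : Fin n ⊕ Fin a => Sum.isLeft j) = gam ^ n := by
  unfold numInp
  rw [← prod_gw, Fintype.prod_sum_type]
  simp [gw]

theorem corr_eq {n a : ℕ} (C : List (List (Gate (Fin n ⊕ Fin a)))) (o : Fin n ⊕ Fin a) :
    ((parityCorrelation C o : ℝ) : ℂ)
      = Phi (fun j : Fin n ⊕ Fin a => Sum.isLeft j)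
          ((circuitOp C)ᴴ * prodOp (atSite o (ketbra (eb false) (eb false))) * circuitOp C)
        - Phi (fun j : Fin n ⊕ Fin a => Sum.isLeft j)
          ((circuitOp C)ᴴ * prodOp (atSite o (ketbra (eb true) (eb true))) * circuitOp C) := by
  rw [Phi_sum, Phi_sum, ← sub_div, ← Finset.sum_sub_distrib]
  unfold parityCorrelation
  push_cast
  congr 1
  refine Finset.sum_congr rfl fun x _ => ?_
  rw [heis_diag, heis_diag]
  unfold sgn
  cases parityBit x <;> simp <;> ring

theorem gam_pow (n : ℕ) : gam ^ n = (2 : ℝ) ^ (-(n : ℝ) / 4) := by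
  unfold gam
  rw [← Real.rpow_natCast, ← Real.rpow_mul (by norm_num), one_div, Real.inv_rpow (by norm_num),
    ← Real.rpow_neg (by norm_num)]
  congr 1
  ring

/-- the depth-two bound -/
theorem depth_two_bound {n a : ℕ} (C : List (List (Gate (Fin n ⊕ Fin a))))
    (hC : circuitValid C) (hd : entanglingDepth C ≤ 2) (o : Fin n ⊕ Fin a) :
    |parityCorrelation C o| ≤ 162 * (2 : ℝ) ^ (-(n : ℝ) / 4) := by
  obtain ⟨u, l₂, l₁, hu, h₂, h₁, heq⟩ := circuit_nf_two C hC hd
  have h := corr_eq C o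
  rw [heq] at h
  have b0 := heis_bound (fun j : Fin n ⊕ Fin a => Sum.isLeft j) o false u l₂ l₁ hu h₂ h₁
  have b1 := heis_bound (fun j : Fin n ⊕ Fin a => Sum.isLeft j) o true u l₂ l₁ hu h₂ h₁
  rw [numInp_sum] at b0 b1
  have : |parityCorrelation C o| = ‖((parityCorrelation C o : ℝ) : ℂ)‖ := by
    rw [Complex.norm_real, Real.norm_eq_abs]
  rw [this, h, ← gam_pow]
  refine (norm_sub_le _ _).trans ?_
  linarith

end Vale.Agent.Lib.P368
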