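import Vale.Agent.Lib.P368.Polar

/-! # Counting the gates between the first and the last entangling layer -/

namespace Vale.Agent.Lib.P368

open Matrix Finset

set_option linter.unusedSectionVars false

variable {ι : Type} [Fintype ι] [DecidableEq ι]

theorem vblock_strong (inp : ι → Bool) (r : Finset ι × (ι → M2)) (hr : ReflValid r)
    (B : ι → M2) (hB : ∀ j ∈ r.1, B j = 1 ∨ K1 (B j)) :
    ‖vblock inp r B‖ ≤ 1 ∧ ((∃ j ∈ r.1, inp j = true) → ‖vblock inp r B‖ ≤ 1 / 2) := by
  classical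
  rw [vblock_eq_Phi inp r hr B]
  have hex : ∀ j, ∃ x y : Bool → ℂ, (j ∈ r.1 → B j ≠ 1 →
      nsq x ≤ 1 ∧ nsq y ≤ 1 ∧ B j = ketbra x y) := by
    intro j
    by_cases hj : j ∈ r.1
    · rcases hB j hj with h | ⟨x, y, hx, hy, h⟩
      · exact ⟨0, 0, fun _ h' => absurd h h'⟩
      · exact ⟨x, y, fun _ _ => ⟨hx, hy, h⟩⟩
    · exact ⟨0, 0, fun h' => absurd h' hj⟩
  choose x y hxy using hex
  set T : Finset ι := r.1.filter (fun j => B j ≠ 1) with hT
  have hN : prodOp (fun j => if j ∈ r.1 then B j else 1) = NOp T x y := by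
    unfold NOp
    congr 1
    funext j
    by_cases hj : j ∈ r.1
    · by_cases hb : B j = 1
      · have : j ∉ T := fun h => (Finset.mem_filter.1 h).2 hb
        simp only [hj, if_true, this, if_false, hb]
      · have : j ∈ T := Finset.mem_filter.2 ⟨hj, hb⟩
        simp only [hj, if_true, this]
        exact (hxy j hj hb).2.2
    · have : j ∉ T := fun h => hj (Finset.mem_filter.1 h).1
      simp only [hj, if_false, this]
  have hx : ∀ j ∈ T, nsq (x j) ≤ 1 := fun j hj =>
    (hxy j (Finset.mem_filter.1 hj).1 (Finset.mem_filter.1 hj).2).1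
  have hy : ∀ j ∈ T, nsq (y j) ≤ 1 := fun j hj =>
    (hxy j (Finset.mem_filter.1 hj).1 (Finset.mem_filter.1 hj).2).2.1
  rw [hN]
  constructor
  · exact polar_bound _ 1 (fun P c h1 h2 => by
      rw [one_mul]; exact norm_Phi_scaled_le _ P c h1 h2) _ (reflOp_herm hr)
      (reflOp_mul_self hr) T x y hx hy
  · rintro ⟨j, hj, hij⟩
    exact polar_bound _ (1 / 2) (fun P c h1 h2 => by
      have := norm_Phi_scaled_le_half (fun j => if j ∈ r.1 then inp j else false) j
        (by simp only [hj, if_true, hij]) P c h1 h2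
      linarith) _ (reflOp_herm hr) (reflOp_mul_self hr) T x y hx hy

theorem block_bound_strong (inp : ι → Bool) (r : Finset ι × (ι → M2)) (hr : ReflValid r)
    (B : ι → M2) (hB : ∀ j ∈ r.1, B j = 1 ∨ K1 (B j)) :
    ‖vblock inp r B‖ ≤ ∏ j ∈ r.1, gw (inp j) := by
  rw [prod_gw]
  obtain ⟨h1, h2⟩ := vblock_strong inp r hr B hB
  have h3 := vblock_termwise inp r hr B hB
  rw [prod_hw] at h3
  refine numeric_block _ _ h1 (fun hm => h2 ?_) h3
  obtain ⟨j, hj⟩ := Finset.card_pos.1 (Nat.lt_of_lt_of_le Nat.zero_lt_one hm)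
  exact ⟨j, (Finset.mem_filter.1 hj).1, (Finset.mem_filter.1 hj).2⟩

/-- the product bound without exceptional block -/
theorem Ev_bound_one (inp : ι → Bool) (g : ι → ℝ) (hg : ∀ j, 0 ≤ g j) (B : ι → M2)
    (hsite : ∀ j, ‖str (inp j) (B j)‖ ≤ g j)
    (l : List (Finset ι × (ι → M2))) (hl : rlistValid l)
    (hblock : ∀ r ∈ l, ‖vblock inp r B‖ ≤ ∏ j ∈ r.1, g j)
    (S : Finset ι) (hS : ∀ r ∈ l, r.1 ⊆ S) :
    ‖Ev inp S l B‖ ≤ ∏ j ∈ S, g j := by
  induction l generalizing S with
  | nil =>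
    simp only [Ev]
    rw [norm_prod]
    exact Finset.prod_le_prod (fun j _ => norm_nonneg _) (fun j _ => hsite j)
  | cons r l ih =>
    have hr := hl.1 r (List.mem_cons_self)
    have hl' : rlistValid l :=
      ⟨fun s hs => hl.1 s (List.mem_cons_of_mem _ hs), (List.pairwise_cons.1 hl.2).2⟩
    have hd : ∀ s ∈ l, Disjoint r.1 s.1 := (List.pairwise_cons.1 hl.2).1
    have hrS := hS r (List.mem_cons_self)
    rw [Ev_cons_eq inp S r l hr hrS hl'.1 hd B, norm_mul]
    have hb := hblock r (List.mem_cons_self)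
    have hi := ih hl' (fun s hs => hblock s (List.mem_cons_of_mem _ hs)) (S \ r.1)
      (fun s hs => by
        intro j hj
        refine Finset.mem_sdiff.2 ⟨hS s (List.mem_cons_of_mem _ hs) hj, ?_⟩
        exact fun hj' => Finset.disjoint_left.1 (hd s hs) hj' hj)
    have hp : (∏ j ∈ r.1, g j) * ∏ j ∈ S \ r.1, g j = ∏ j ∈ S, g j := by
      rw [mul_comm, Finset.prod_sdiff hrS]
    have p1 : 0 ≤ ∏ j ∈ r.1, g j := Finset.prod_nonneg fun j _ => hg j
    rw [← hp]
    exact mul_le_mul hb hi (norm_nonneg _) p1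

/-- product operators all of whose sites are the identity or rank-one contractions -/
def Site1 (B : ι → M2) : Prop := ∀ j, B j = 1 ∨ K1 (B j)

theorem layer1_bound_strong (inp : ι → Bool) (B : ι → M2) (hB : Site1 B)
    (l : List (Finset ι × (ι → M2))) (hl : rlistValid l) :
    ‖Phi inp (conjBy l (prodOp B))‖ ≤ gam ^ numInp inp := by
  rw [Phi_conjBy inp l hl.1 B]
  have h := Ev_bound_one inp (fun j => gw (inp j)) (fun j => gw_nonneg _) B
    (fun j => (site_bound0 (hB j) _).trans (hw_le_gw _)) l hl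
    (fun r hr => block_bound_strong inp r (hl.1 r hr) B (fun j _ => hB j))
    Finset.univ (fun r _ => Finset.subset_univ _)
  rw [prod_gw] at h
  exact h

theorem ReflValid.site {r : Finset ι × (ι → M2)} (hr : ReflValid r) (j : ι) :
    r.2 j = 1 ∨ Pr (r.2 j) := by
  by_cases hj : j ∈ r.1
  · exact Or.inr (hr.1 j hj)
  · exact Or.inl (hr.2 j hj)

theorem Site1.left {r : Finset ι × (ι → M2)} (hr : ReflValid r) {B : ι → M2} (hB : Site1 B) :
    Site1 (fun j => r.2 j * B j) := by
  intro j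
  rcases hr.site j with h | h
  · simp only [h, one_mul]; exact hB j
  · exact Or.inr (site_k1_left h (hB j))

theorem Site1.right {r : Finset ι × (ι → M2)} (hr : ReflValid r) {B : ι → M2} (hB : Site1 B) :
    Site1 (fun j => B j * r.2 j) := by
  intro j
  rcases hr.site j with h | h
  · simp only [h, mul_one]; exact hB j
  · exact Or.inr (site_k1_right h (hB j))

theorem norm_four_le {K : ℝ} {x y z w : ℂ} (hx : ‖x‖ ≤ K) (hy : ‖y‖ ≤ K) (hz : ‖z‖ ≤ K)
    (hw : ‖w‖ ≤ K) : ‖x - 2 * y - 2 * z + 4 * w‖ ≤ 9 * K := by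
  calc ‖x - 2 * y - 2 * z + 4 * w‖ ≤ ‖x - 2 * y - 2 * z‖ + ‖4 * w‖ := norm_add_le _ _
    _ ≤ (‖x - 2 * y‖ + ‖2 * z‖) + ‖4 * w‖ := by gcongr; exact norm_sub_le _ _
    _ ≤ ((‖x‖ + ‖2 * y‖) + ‖2 * z‖) + ‖4 * w‖ := by gcongr; exact norm_sub_le _ _
    _ = ‖x‖ + 2 * ‖y‖ + 2 * ‖z‖ + 4 * ‖w‖ := by simp
    _ ≤ 9 * K := by linarith

/-- an arbitrary sequence of reflections above one layer -/
theorem seq_bound (inp : ι → Bool) (l₁ : List (Finset ι × (ι → M2))) (h₁ : rlistValid l₁)
    (ρ : List (Finset ι × (ι → M2))) (hρ : ∀ r ∈ ρ, ReflValid r) (B : ι → M2) (hB : Site1 B) :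
    ‖Phi inp (conjBy l₁ (conjBy ρ (prodOp B)))‖ ≤ 9 ^ ρ.length * gam ^ numInp inp := by
  induction ρ generalizing B with
  | nil =>
    rw [conjBy_nil]
    simpa using layer1_bound_strong inp B hB l₁ h₁
  | cons r ρ ih =>
    have hr := hρ r List.mem_cons_self
    have hρ' : ∀ s ∈ ρ, ReflValid s := fun s hs => hρ s (List.mem_cons_of_mem _ hs)
    rw [conjBy_cons hr, refl_conj_prodOp]
    simp only [conjBy_add, conjBy_sub, conjBy_smul, Phi_add, Phi_sub, Phi_smul]
    have b0 := ih hρ' B hB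
    have b1 := ih hρ' _ (Site1.left hr hB)
    have b2 := ih hρ' _ (Site1.right hr hB)
    have b3 := ih hρ' _ (Site1.right hr (Site1.left hr hB))
    have := norm_four_le b0 b1 b2 b3
    rw [List.length_cons, pow_succ]
    calc _ ≤ 9 * (9 ^ ρ.length * gam ^ numInp inp) := this
      _ = _ := by ring

/-- only the gate of the last layer that contains the output qubit matters -/
theorem top_seq_bound (inp : ι → Bool) (o : ι) (π : M2) (hπ : Pr π)
    (l₁ ρ l₂ : List (Finset ι × (ι → M2))) (h₁ : rlistValid l₁) (hρ : ∀ r ∈ ρ, ReflValid r)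
    (h₂ : rlistValid l₂) :
    ‖Phi inp (conjBy l₁ (conjBy ρ (conjBy l₂ (prodOp (atSite o π)))))‖
      ≤ 9 * (9 ^ ρ.length * gam ^ numInp inp) := by
  have hK0 : 0 ≤ 9 ^ ρ.length * gam ^ numInp inp := by have := gam_pos; positivity
  have hs0 : Site1 (atSite o π) := by
    intro j
    by_cases hj : j = o
    · subst hj; rw [atSite_self]; exact Or.inr hπ.k1
    · exact Or.inl (atSite_ne o π hj)
  induction l₂ with
  | nil =>
    rw [conjBy_nil]
    have := seq_bound inp l₁ h₁ ρ hρ _ hs0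
    linarith
  | cons r l ih =>
    have hr := h₂.1 r List.mem_cons_self
    have hl : rlistValid l :=
      ⟨fun s hs => h₂.1 s (List.mem_cons_of_mem _ hs), (List.pairwise_cons.1 h₂.2).2⟩
    have hd : ∀ s ∈ l, Disjoint r.1 s.1 := (List.pairwise_cons.1 h₂.2).1
    rw [conjBy_cons hr]
    by_cases ho : o ∈ r.1
    · have hone : ∀ s ∈ l, ∀ j ∈ s.1, r.2 j = 1 ∧ atSite o π j = 1 := by
        intro s hs j hj
        have hjr : j ∉ r.1 := fun h => Finset.disjoint_left.1 (hd s hs) h hj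
        exact ⟨hr.2 j hjr, atSite_ne o π (fun h => hjr (h ▸ ho))⟩
      rw [refl_conj_prodOp, conjBy_add, conjBy_sub, conjBy_sub, conjBy_smul, conjBy_smul,
        conjBy_smul, conj_fix l hl.1 _ (fun s hs j hj => (hone s hs j hj).2),
        conj_fix l hl.1 (fun j => r.2 j * atSite o π j)
          (fun s hs j hj => by simp only [(hone s hs j hj).1, (hone s hs j hj).2, mul_one]),
        conj_fix l hl.1 (fun j => atSite o π j * r.2 j)
          (fun s hs j hj => by simp only [(hone s hs j hj).1, (hone s hs j hj).2, mul_one]),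
        conj_fix l hl.1 (fun j => r.2 j * atSite o π j * r.2 j)
          (fun s hs j hj => by simp only [(hone s hs j hj).1, (hone s hs j hj).2, mul_one])]
      simp only [conjBy_add, conjBy_sub, conjBy_smul, Phi_add, Phi_sub, Phi_smul]
      exact norm_four_le
        (seq_bound inp l₁ h₁ ρ hρ _ hs0)
        (seq_bound inp l₁ h₁ ρ hρ _ (Site1.left hr hs0))
        (seq_bound inp l₁ h₁ ρ hρ _ (Site1.right hr hs0))
        (seq_bound inp l₁ h₁ ρ hρ _ (Site1.right hr (Site1.left hr hs0)))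
    · rw [refl_commute hr (fun j hj => atSite_ne o π (fun h => ho (h ▸ hj)))]
      exact ih hl

end Vale.Agent.Lib.P368
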