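import Vale.Agent.Lib.P368.Defs

/-! # Gate counts -/

namespace Vale.Agent.Lib.P368

/-- The number of multiqubit gates of a circuit. -/
def multiCount {ι : Type} (C : List (List (Gate ι))) : ℕ :=
  (C.map (fun L => L.countP Gate.isMulti)).sum

end Vale.Agent.Lib.P368
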