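import Vale.Agent.Lib.P368.Count
import Vale.Agent.Lib.P368.Defs2

/-! # Normal form with gate counts, and the gate-count bound -/

namespace Vale.Agent.Lib.P368

open Matrix Finset

set_option linter.unusedSectionVars false

section general

variable {ι : Type} [Fintype ι] [DecidableEq ι]

theorem layer_nf_len (L : List (Gate ι)) (hL : layerValid L) (u : ι → M2) (hu : LocalU u) :
    ∃ (u' : ι → M2) (l : List (Finset ι × (ι → M2))), LocalU u' ∧ rlistValid l ∧
      (∀ r ∈ l, ∃ g ∈ L, r.1 = g.supp) ∧ l.length = L.countP Gate.isMulti ∧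
      layerOp L * prodOp u = prodOp u' * rlistOp l := by
  induction L with
  | nil =>
    exact ⟨u, [], hu, ⟨by simp, List.Pairwise.nil⟩, by simp, rfl,
      by simp [layerOp, rlistOp]⟩
  | cons g L ih =>
    have hL' : layerValid L :=
      ⟨fun g' hg' => hL.1 g' (List.mem_cons_of_mem _ hg'), (List.pairwise_cons.1 hL.2).2⟩
    obtain ⟨u', l, hu', hl, hsupp, hlen, heq⟩ := ih hL'
    have hop : layerOp (g :: L) * prodOp u = g.op * (prodOp u' * rlistOp l) := by
      rw [← heq]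
      simp only [layerOp, List.map_cons, List.prod_cons, Matrix.mul_assoc]
    have hg := hL.1 g List.mem_cons_self
    cases g with
    | single i s =>
      refine ⟨fun j => atSite i s j * u' j, l, ?_, hl, ?_, ?_, ?_⟩
      · intro j
        refine mul_mem ?_ (hu' j)
        by_cases hj : j = i
        · subst hj; rw [atSite_self]; exact hg
        · rw [atSite_ne i s hj]; exact one_mem _
      · intro r hr
        obtain ⟨g', hg', h⟩ := hsupp r hr
        exact ⟨g', List.mem_cons_of_mem _ hg', h⟩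
      · rw [hlen]
        simp [List.countP_cons, Gate.isMulti]
      · rw [hop, single_eq, ← Matrix.mul_assoc, prodOp_mul]
    | toffoli S b =>
      obtain ⟨hp, hv⟩ := refl_push hu' (tof_valid S b)
      refine ⟨u', (insert b S, fun j => (u' j)ᴴ * tofQ S b j * u' j) :: l, hu', ⟨?_, ?_⟩, ?_, ?_,
        ?_⟩
      · intro r hr
        rcases List.mem_cons.1 hr with rfl | hr
        · exact hv
        · exact hl.1 r hr
      · refine List.pairwise_cons.2 ⟨?_, hl.2⟩
        intro r hr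
        obtain ⟨g', hg', h⟩ := hsupp r hr
        have := (List.pairwise_cons.1 hL.2).1 g' hg'
        rw [h]
        exact this
      · intro r hr
        rcases List.mem_cons.1 hr with rfl | hr
        · exact ⟨_, List.mem_cons_self, rfl⟩
        · obtain ⟨g', hg', h⟩ := hsupp r hr
          exact ⟨g', List.mem_cons_of_mem _ hg', h⟩
      · rw [List.length_cons, hlen]
        simp [List.countP_cons, Gate.isMulti]
      · rw [hop, toffoli_eq S b hg.2, ← Matrix.mul_assoc, hp]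
        simp only [rlistOp, List.map_cons, List.prod_cons, Matrix.mul_assoc]

theorem rlistOp_append (l l' : List (Finset ι × (ι → M2))) :
    rlistOp (l ++ l') = rlistOp l * rlistOp l' := by
  simp [rlistOp, List.prod_append]

theorem seg_nf (C : List (List (Gate ι))) (hC : circuitValid C) (u : ι → M2) (hu : LocalU u)
    (X : Op ι) :
    ∃ (u' : ι → M2) (ρ : List (Finset ι × (ι → M2))), LocalU u' ∧ (∀ r ∈ ρ, ReflValid r) ∧
      ρ.length = multiCount C ∧
      C.foldl (fun U L => layerOp L * U) (prodOp u * X) = prodOp u' * (rlistOp ρ * X) := by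
  induction C generalizing u X with
  | nil => exact ⟨u, [], hu, by simp, rfl, by simp [rlistOp]⟩
  | cons L C ih =>
    have hL := hC L List.mem_cons_self
    have hC' : circuitValid C := fun L' hL' => hC L' (List.mem_cons_of_mem _ hL')
    obtain ⟨u₁, l, hu₁, hl, -, hlen, heq⟩ := layer_nf_len L hL u hu
    obtain ⟨u₂, ρ, hu₂, hρ, hρlen, heq₂⟩ := ih hC' u₁ hu₁ (rlistOp l * X)
    refine ⟨u₂, ρ ++ l, hu₂, ?_, ?_, ?_⟩
    · intro r hr
      rcases List.mem_append.1 hr with h | h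
      · exact hρ r h
      · exact hl.1 r h
    · rw [List.length_append, hρlen, hlen]
      simp [multiCount, add_comm]
    · rw [List.foldl_cons, ← Matrix.mul_assoc, heq, Matrix.mul_assoc, heq₂, rlistOp_append,
        Matrix.mul_assoc]

theorem sandwich_nf (C₀ C₁ C₂ : List (List (Gate ι))) (L₁ L₂ : List (Gate ι))
    (hC : circuitValid (C₀ ++ L₁ :: (C₁ ++ L₂ :: C₂))) (h₀ : multiCount C₀ = 0)
    (h₂ : multiCount C₂ = 0) :
    ∃ (u : ι → M2) (l₂ ρ l₁ : List (Finset ι × (ι → M2))), LocalU u ∧ rlistValid l₂ ∧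
      (∀ r ∈ ρ, ReflValid r) ∧ ρ.length = multiCount C₁ ∧ rlistValid l₁ ∧
      circuitOp (C₀ ++ L₁ :: (C₁ ++ L₂ :: C₂))
        = prodOp u * (rlistOp l₂ * (rlistOp ρ * rlistOp l₁)) := by
  have v0 : circuitValid C₀ := fun L hL => hC L (by simp [hL])
  have v1 : layerValid L₁ := hC L₁ (by simp)
  have v2 : circuitValid C₁ := fun L hL => hC L (by simp [hL])
  have v3 : layerValid L₂ := hC L₂ (by simp)
  have v4 : circuitValid C₂ := fun L hL => hC L (by simp [hL])
  obtain ⟨u₀, ρ₀, hu₀, -, hlen₀, e₀⟩ := seg_nf C₀ v0 (fun _ => 1) localU_one 1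
  have hρ₀ : ρ₀ = [] := List.length_eq_zero_iff.1 (hlen₀.trans h₀)
  subst hρ₀
  obtain ⟨u₁, l₁, hu₁, hl₁, -, -, e₁⟩ := layer_nf_len L₁ v1 u₀ hu₀
  obtain ⟨u₂, ρ, hu₂, hρ, hlen, e₂⟩ := seg_nf C₁ v2 u₁ hu₁ (rlistOp l₁)
  obtain ⟨u₃, l₂, hu₃, hl₂, -, -, e₃⟩ := layer_nf_len L₂ v3 u₂ hu₂
  obtain ⟨u₄, ρ₂, hu₄, -, hlen₂, e₄⟩ := seg_nf C₂ v4 u₃ hu₃ (rlistOp l₂ * (rlistOp ρ * rlistOp l₁))
  have hρ₂ : ρ₂ = [] := List.length_eq_zero_iff.1 (hlen₂.trans h₂)
  subst hρ₂
  refine ⟨u₄, l₂, ρ, l₁, hu₄, hl₂, hρ, hlen, hl₁, ?_⟩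
  unfold circuitOp
  rw [List.foldl_append, List.foldl_cons, List.foldl_append, List.foldl_cons]
  have s0 : List.foldl (fun U L => layerOp L * U) (1 : Op ι) C₀ = prodOp u₀ := by
    have := e₀
    rw [prodOp_one, Matrix.mul_one] at this
    rw [this]
    simp [rlistOp]
  rw [s0, e₁, e₂, ← Matrix.mul_assoc, e₃, Matrix.mul_assoc, e₄]
  simp [rlistOp]

theorem heis_bound_count (inp : ι → Bool) (o : ι) (b : Bool) (u : ι → M2)
    (l₂ ρ l₁ : List (Finset ι × (ι → M2))) (hu : LocalU u) (h₂ : rlistValid l₂)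
    (hρ : ∀ r ∈ ρ, ReflValid r) (h₁ : rlistValid l₁) :
    ‖Phi inp ((prodOp u * (rlistOp l₂ * (rlistOp ρ * rlistOp l₁)))ᴴ
      * prodOp (atSite o (ketbra (eb b) (eb b)))
      * (prodOp u * (rlistOp l₂ * (rlistOp ρ * rlistOp l₁))))‖
      ≤ 9 * (9 ^ ρ.length * gam ^ numInp inp) := by
  have e1 : (prodOp u)ᴴ * prodOp (atSite o (ketbra (eb b) (eb b))) * prodOp u
      = prodOp (atSite o ((u o)ᴴ * ketbra (eb b) (eb b) * u o)) := by
    rw [prodOp_conjTranspose, prodOp_mul, prodOp_mul]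
    congr 1
    funext j
    by_cases hj : j = o
    · subst hj
      rw [atSite_self, atSite_self]
    · rw [atSite_ne _ _ hj, atSite_ne _ _ hj, Matrix.mul_one, hu.star_mul j]
  have e2 : (prodOp u * (rlistOp l₂ * (rlistOp ρ * rlistOp l₁)))ᴴ
      * prodOp (atSite o (ketbra (eb b) (eb b)))
      * (prodOp u * (rlistOp l₂ * (rlistOp ρ * rlistOp l₁)))
      = conjBy l₁ (conjBy ρ (conjBy l₂
        (prodOp (atSite o ((u o)ᴴ * ketbra (eb b) (eb b) * u o))))) := by
    rw [← e1]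
    simp only [conjBy, Matrix.conjTranspose_mul, Matrix.mul_assoc]
  rw [e2]
  exact top_seq_bound inp o _ ((pr_eb b).conj (hu o)) l₁ ρ l₂ h₁ hρ h₂

end general

/-- the gate-count bound: the first and the last entangling layer are free -/
theorem gate_count_bound {n a : ℕ} (C₀ C₁ C₂ : List (List (Gate (Fin n ⊕ Fin a))))
    (L₁ L₂ : List (Gate (Fin n ⊕ Fin a)))
    (hC : circuitValid (C₀ ++ L₁ :: (C₁ ++ L₂ :: C₂))) (h₀ : multiCount C₀ = 0)
    (h₂ : multiCount C₂ = 0) (o : Fin n ⊕ Fin a) :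
    |parityCorrelation (C₀ ++ L₁ :: (C₁ ++ L₂ :: C₂)) o|
      ≤ 18 * 9 ^ multiCount C₁ * (2 : ℝ) ^ (-(n : ℝ) / 4) := by
  obtain ⟨u, l₂, ρ, l₁, hu, hl₂, hρ, hlen, hl₁, heq⟩ := sandwich_nf C₀ C₁ C₂ L₁ L₂ hC h₀ h₂
  have h := corr_eq (C₀ ++ L₁ :: (C₁ ++ L₂ :: C₂)) o
  rw [heq] at h
  have b0 := heis_bound_count (fun j : Fin n ⊕ Fin a => Sum.isLeft j) o false u l₂ ρ l₁ hu hl₂ hρ
    hl₁
  have b1 := heis_bound_count (fun j : Fin n ⊕ Fin a => Sum.isLeft j) o true u l₂ ρ l₁ hu hl₂ hρ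
    hl₁
  rw [numInp_sum, hlen] at b0 b1
  have : |parityCorrelation (C₀ ++ L₁ :: (C₁ ++ L₂ :: C₂)) o|
      = ‖((parityCorrelation (C₀ ++ L₁ :: (C₁ ++ L₂ :: C₂)) o : ℝ) : ℂ)‖ := by
    rw [Complex.norm_real, Real.norm_eq_abs]
  rw [this, h, ← gam_pow]
  refine (norm_sub_le _ _).trans ?_
  linarith

end Vale.Agent.Lib.P368
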