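import Vale.Agent.Lib.P368.BlockBound

/-! # The covariance bound for one block -/

namespace Vale.Agent.Lib.P368

open Matrix Finset

set_option linter.unusedSectionVars false

/-- Cauchy-Schwarz for the components orthogonal to a unit vector -/
theorem cov_cs {E : Type*} [NormedAddCommGroup E] [InnerProductSpace ℂ E] (R X Y : E)
    (hR : ‖R‖ = 1) :
    ‖inner ℂ X Y - inner ℂ X R * inner ℂ R Y‖ ^ 2
      ≤ (‖X‖ ^ 2 - ‖inner ℂ R X‖ ^ 2) * (‖Y‖ ^ 2 - ‖inner ℂ R Y‖ ^ 2) := by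
  have hRR : inner ℂ R R = (1 : ℂ) := by
    rw [inner_self_eq_norm_sq_to_K, hR]; simp
  have key : ∀ A C : E, inner ℂ (A - inner ℂ R A • R) (C - inner ℂ R C • R)
      = inner ℂ A C - inner ℂ A R * inner ℂ R C := by
    intro A C
    rw [inner_sub_left, inner_sub_right, inner_sub_right, inner_smul_left, inner_smul_right,
      inner_smul_left, inner_smul_right, hRR, inner_conj_symm]
    ring
  have nrm : ∀ A : E, ‖A - inner ℂ R A • R‖ ^ 2 = ‖A‖ ^ 2 - ‖inner ℂ R A‖ ^ 2 := by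
    intro A
    have h1 := key A A
    rw [inner_self_eq_norm_sq_to_K, inner_self_eq_norm_sq_to_K] at h1
    have h2 : inner ℂ A R * inner ℂ R A = ((‖inner ℂ R A‖ ^ 2 : ℝ) : ℂ) := by
      rw [← inner_conj_symm A R]
      push_cast
      exact Complex.conj_mul' _
    rw [h2] at h1
    have h3 := congrArg Complex.re h1
    have e : ∀ t : ℝ, (((t : ℝ) : ℂ) ^ 2).re = t ^ 2 := by
      intro t
      rw [← Complex.ofReal_pow, Complex.ofReal_re]
    simp only [Complex.sub_re, Complex.ofReal_re] at h3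
    erw [e, e] at h3
    exact h3
  rw [← key, ← nrm, ← nrm, ← mul_pow]
  exact pow_le_pow_left₀ (norm_nonneg _) (norm_inner_le_norm _ _) 2

variable {κ : Type} [Fintype κ] [DecidableEq κ]

/-- product vectors -/
noncomputable def pv (u : κ → Bool → ℂ) : EuclideanSpace ℂ (κ → Bool) :=
  WithLp.toLp 2 (fun x => ∏ j, u j (x j))

theorem inner_pv (u v : κ → Bool → ℂ) : inner ℂ (pv u) (pv v) = ∏ j, ip (u j) (v j) := by
  unfold pv
  rw [EuclideanSpace.inner_toLp_toLp]
  have h : ∀ j, ip (u j) (v j) = ∑ b : Bool, v j b * star (u j b) := by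
    intro j
    simp only [ip, Fintype.sum_bool]
    ring
  simp only [h]
  rw [Finset.prod_univ_sum, Fintype.piFinset_univ]
  simp only [dotProduct, Pi.star_apply, star_prod, Finset.prod_mul_distrib]

/-- the site functional with general real weights -/
noncomputable def strW (ω : Bool → ℝ) (X : M2) : ℂ := ∑ b : Bool, (ω b : ℂ) * X b b

theorem str_eq_strW (inp : Bool) (X : M2) : str inp X = strW (wt inp) X := rfl

/-- the weighted vector -/
noncomputable def wv (ω : Bool → ℝ) (r : Bool → ℂ) : Bool → ℂ := fun b => (ω b : ℂ) * r b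

theorem strW_left (ω : Bool → ℝ) (r : Bool → ℂ) (B : M2) (hB : Bᴴ = B) :
    strW ω (ketbra r r * B) = ip (B *ᵥ r) (wv ω r) := by
  have e : ∀ b c, star (B b c) = B c b := by
    intro b c
    conv_rhs => rw [← hB]
    rfl
  simp only [strW, ip, wv, Matrix.mul_apply, Matrix.mulVec, dotProduct, Fintype.sum_bool,
    ketbra_apply, star_add, star_mul', e]
  ring

theorem strW_right (ω : Bool → ℝ) (r : Bool → ℂ) (B : M2) :
    strW ω (B * ketbra r r) = ip (wv ω r) (B *ᵥ r) := by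
  simp only [strW, ip, wv, Matrix.mul_apply, Matrix.mulVec, dotProduct, Fintype.sum_bool,
    ketbra_apply, star_mul', Complex.star_def, Complex.conj_ofReal]
  ring

theorem strW_mid (ω : Bool → ℝ) (r : Bool → ℂ) (B : M2) :
    strW ω (ketbra r r * B * ketbra r r) = ip r (B *ᵥ r) * ip r (wv ω r) := by
  simp only [strW, ip, wv, Matrix.mul_apply, Matrix.mulVec, dotProduct, Fintype.sum_bool,
    ketbra_apply]
  ring

theorem ip_proj (r : Bool → ℂ) (B : M2) (h1 : Bᴴ = B) (h2 : B * B = B) :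
    ip r (B *ᵥ r) = ip (B *ᵥ r) (B *ᵥ r) := by
  have e : ∀ x y : Bool → ℂ, ip x y = star x ⬝ᵥ y := by
    intro x y
    simp [ip, dotProduct, add_comm]
  rw [e, e, Matrix.star_mulVec, h1, ← Matrix.dotProduct_mulVec, Matrix.mulVec_mulVec, h2]

theorem ip_wv (ω : Bool → ℝ) (r : Bool → ℂ) :
    ip r (wv ω r) = ((ω false * ‖r false‖ ^ 2 + ω true * ‖r true‖ ^ 2 : ℝ) : ℂ) := by
  simp only [ip, wv]
  push_cast
  rw [← Complex.conj_mul', ← Complex.conj_mul']
  simp only [Complex.star_def]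
  ring

theorem ip_wv_wv (ω : Bool → ℝ) (r : Bool → ℂ) :
    ip (wv ω r) (wv ω r)
      = ((ω false ^ 2 * ‖r false‖ ^ 2 + ω true ^ 2 * ‖r true‖ ^ 2 : ℝ) : ℂ) := by
  simp only [ip, wv]
  push_cast
  rw [← Complex.conj_mul', ← Complex.conj_mul']
  simp only [Complex.star_def, map_mul, Complex.conj_ofReal]
  ring

theorem norm_sq_of_inner {E : Type*} [NormedAddCommGroup E] [InnerProductSpace ℂ E] (A : E)
    (t : ℝ) (h : inner ℂ A A = (t : ℂ)) : ‖A‖ ^ 2 = t := by
  rw [inner_self_eq_norm_sq_to_K] at h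
  have h3 := congrArg Complex.re h
  have e : ∀ t : ℝ, (((t : ℝ) : ℂ) ^ 2).re = t ^ 2 := by
    intro t
    rw [← Complex.ofReal_pow, Complex.ofReal_re]
  rw [Complex.ofReal_re] at h3
  erw [e] at h3
  exact h3

/-- the fluctuation part of a block -/
theorem fluct_bound (ω : κ → Bool → ℝ) (r : κ → Bool → ℂ) (hr : ∀ j, nsq (r j) = 1)
    (B : κ → M2) (h1 : ∀ j, (B j)ᴴ = B j) (h2 : ∀ j, B j * B j = B j) (s : ℝ) (hs : 0 ≤ s)
    (hY : ∏ j, (ω j false ^ 2 * ‖r j false‖ ^ 2 + ω j true ^ 2 * ‖r j true‖ ^ 2)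
      - (∏ j, (ω j false * ‖r j false‖ ^ 2 + ω j true * ‖r j true‖ ^ 2)) ^ 2 ≤ s ^ 2) :
    ‖- 2 * ∏ j, strW (ω j) (ketbra (r j) (r j) * B j)
      - 2 * ∏ j, strW (ω j) (B j * ketbra (r j) (r j))
      + 4 * ∏ j, strW (ω j) (ketbra (r j) (r j) * B j * ketbra (r j) (r j))‖ ≤ 2 * s := by
  set R := pv r with hRdef
  set X := pv (fun j => B j *ᵥ r j) with hXdef
  set Y := pv (fun j => wv (ω j) (r j)) with hYdef
  set z : ℝ := ∏ j, (ω j false * ‖r j false‖ ^ 2 + ω j true * ‖r j true‖ ^ 2) with hz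
  set Y2 : ℝ := ∏ j, (ω j false ^ 2 * ‖r j false‖ ^ 2 + ω j true ^ 2 * ‖r j true‖ ^ 2) with hY2
  have hRn : ‖R‖ = 1 := by
    have : ‖R‖ ^ 2 = 1 := by
      apply norm_sq_of_inner
      rw [hRdef, inner_pv]
      simp only [ip_self, hr]
      simp
    have h0 := norm_nonneg R
    nlinarith
  have eXY : ∏ j, strW (ω j) (ketbra (r j) (r j) * B j) = inner ℂ X Y := by
    rw [hXdef, hYdef, inner_pv]
    exact Finset.prod_congr rfl fun j _ => strW_left _ _ _ (h1 j)
  have eYX : ∏ j, strW (ω j) (B j * ketbra (r j) (r j)) = inner ℂ Y X := by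
    rw [hXdef, hYdef, inner_pv]
    exact Finset.prod_congr rfl fun j _ => strW_right _ _ _
  have eMid : ∏ j, strW (ω j) (ketbra (r j) (r j) * B j * ketbra (r j) (r j))
      = inner ℂ R X * inner ℂ R Y := by
    rw [hRdef, hXdef, hYdef, inner_pv, inner_pv, ← Finset.prod_mul_distrib]
    exact Finset.prod_congr rfl fun j _ => strW_mid _ _ _
  set p : ℝ := ‖X‖ ^ 2 with hp
  have hRX : inner ℂ R X = (p : ℂ) := by
    have : inner ℂ R X = inner ℂ X X := by
      rw [hRdef, hXdef, inner_pv, inner_pv]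
      exact Finset.prod_congr rfl fun j _ => ip_proj _ _ (h1 j) (h2 j)
    rw [this, inner_self_eq_norm_sq_to_K, hp]
    push_cast
    rfl
  have hXR : inner ℂ X R = (p : ℂ) := by
    rw [← inner_conj_symm, hRX, Complex.conj_ofReal]
  have hRY : inner ℂ R Y = (z : ℂ) := by
    rw [hRdef, hYdef, inner_pv, hz]
    push_cast
    refine Finset.prod_congr rfl fun j _ => ?_
    rw [ip_wv]
    push_cast
    rfl
  have hYR : inner ℂ Y R = (z : ℂ) := by
    rw [← inner_conj_symm, hRY, Complex.conj_ofReal]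
  have hYY : ‖Y‖ ^ 2 = Y2 := by
    apply norm_sq_of_inner
    rw [hYdef, inner_pv, hY2]
    push_cast
    refine Finset.prod_congr rfl fun j _ => ?_
    rw [ip_wv_wv]
    push_cast
    rfl
  have hD : 0 ≤ Y2 - z ^ 2 := by
    have h := norm_inner_le_norm (𝕜 := ℂ) R Y
    rw [hRn, one_mul, hRY, Complex.norm_real, Real.norm_eq_abs] at h
    have h' : |z| ^ 2 ≤ ‖Y‖ ^ 2 := pow_le_pow_left₀ (abs_nonneg _) h 2
    rw [sq_abs, hYY] at h'
    linarith
  have hpp : p - p ^ 2 ≤ 1 / 4 := by nlinarith [sq_nonneg (p - 1 / 2)]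
  have c1 := cov_cs R X Y hRn
  have c2 := cov_cs R Y X hRn
  rw [hRX, hRY, hXR, Complex.norm_real, Complex.norm_real, Real.norm_eq_abs, Real.norm_eq_abs,
    sq_abs, sq_abs, hYY, ← hp] at c1
  rw [hRX, hRY, hYR, Complex.norm_real, Complex.norm_real, Real.norm_eq_abs, Real.norm_eq_abs,
    sq_abs, sq_abs, hYY, ← hp] at c2
  have b : (p - p ^ 2) * (Y2 - z ^ 2) ≤ (s / 2) ^ 2 := by nlinarith
  have d1 : ‖inner ℂ X Y - (p : ℂ) * (z : ℂ)‖ ≤ s / 2 := by
    have := c1.trans b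
    exact (pow_le_pow_iff_left₀ (norm_nonneg _) (by positivity) two_ne_zero).1 this
  have d2 : ‖inner ℂ Y X - (z : ℂ) * (p : ℂ)‖ ≤ s / 2 := by
    have b' : (Y2 - z ^ 2) * (p - p ^ 2) ≤ (s / 2) ^ 2 := by rw [mul_comm]; exact b
    have := c2.trans b'
    exact (pow_le_pow_iff_left₀ (norm_nonneg _) (by positivity) two_ne_zero).1 this
  rw [eXY, eYX, eMid, hRX, hRY]
  have e : -2 * inner ℂ X Y - 2 * inner ℂ Y X + 4 * ((p : ℂ) * (z : ℂ))
      = (-2) * (inner ℂ X Y - (p : ℂ) * (z : ℂ)) + (-2) * (inner ℂ Y X - (z : ℂ) * (p : ℂ)) := by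
    ring
  rw [e]
  refine (norm_add_le _ _).trans ?_
  rw [norm_mul, norm_mul]
  simp only [norm_neg, Complex.norm_ofNat]
  linarith

/-- absolute values of the weights -/
noncomputable def awt (inp : Bool) (b : Bool) : ℝ :=
  if inp then 1 / 2 else (if b then 0 else 1)

theorem abs_wt (inp b : Bool) : |wt inp b| = awt inp b := by
  cases inp <;> cases b <;> simp [wt, awt, abs_of_pos]

/-- the ensemble functional with general weights -/
noncomputable def PhiW (ω : κ → Bool → ℝ) (M : Op κ) : ℂ :=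
  ∑ z, ((∏ j, ω j (z j) : ℝ) : ℂ) * M z z

theorem PhiW_prodOp (ω : κ → Bool → ℝ) (B : κ → M2) :
    PhiW ω (prodOp B) = ∏ j, strW (ω j) (B j) := by
  unfold PhiW strW
  rw [Finset.prod_univ_sum, Fintype.piFinset_univ]
  refine Finset.sum_congr rfl fun z _ => ?_
  rw [prodOp_apply, Finset.prod_mul_distrib]
  push_cast
  rfl

theorem PhiW_add (ω : κ → Bool → ℝ) (M N : Op κ) : PhiW ω (M + N) = PhiW ω M + PhiW ω N := by
  simp [PhiW, mul_add, Finset.sum_add_distrib]

theorem PhiW_sub (ω : κ → Bool → ℝ) (M N : Op κ) : PhiW ω (M - N) = PhiW ω M - PhiW ω N := by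
  simp [PhiW, mul_sub, Finset.sum_sub_distrib]

theorem PhiW_smul (ω : κ → Bool → ℝ) (c : ℂ) (M : Op κ) : PhiW ω (c • M) = c * PhiW ω M := by
  simp only [PhiW, Matrix.smul_apply, smul_eq_mul, Finset.mul_sum]
  refine Finset.sum_congr rfl fun z _ => ?_
  ring

theorem PhiW_conj (ω : κ → Bool → ℝ) (r : Finset κ × (κ → M2)) (B : κ → M2) :
    PhiW ω (reflOp r * prodOp B * reflOp r)
      = ∏ j, strW (ω j) (B j) - 2 * ∏ j, strW (ω j) (r.2 j * B j)
        - 2 * ∏ j, strW (ω j) (B j * r.2 j) + 4 * ∏ j, strW (ω j) (r.2 j * B j * r.2 j) := by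
  rw [refl_conj_prodOp, PhiW_add, PhiW_sub, PhiW_sub, PhiW_smul, PhiW_smul, PhiW_smul,
    PhiW_prodOp, PhiW_prodOp, PhiW_prodOp, PhiW_prodOp]

/-- diagonal entries of a Hermitian idempotent are nonnegative reals -/
theorem diag_proj_real {ν : Type} [Fintype ν] (P : Matrix ν ν ℂ) (h1 : Pᴴ = P) (h2 : P * P = P)
    (z : ν) : ∃ t : ℝ, 0 ≤ t ∧ P z z = (t : ℂ) := by
  refine ⟨∑ w, ‖P z w‖ ^ 2, Finset.sum_nonneg fun w _ => by positivity, ?_⟩
  have : P z z = (P * P) z z := by rw [h2]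
  rw [this, Matrix.mul_apply]
  push_cast
  refine Finset.sum_congr rfl fun w _ => ?_
  have : P w z = star (P z w) := by
    conv_lhs => rw [← h1]
    rfl
  rw [this, ← Complex.mul_conj']
  rfl

theorem PhiW_abs_le (ω : κ → Bool → ℝ) (P : Op κ) (h1 : Pᴴ = P) (h2 : P * P = P) :
    ‖PhiW ω P‖ ≤ ‖PhiW (fun j b => |ω j b|) P‖ := by
  choose t ht0 ht using diag_proj_real P h1 h2
  have e : PhiW (fun j b => |ω j b|) P = ((∑ z, (∏ j, |ω j (z j)|) * t z : ℝ) : ℂ) := by
    unfold PhiW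
    push_cast
    refine Finset.sum_congr rfl fun z _ => ?_
    rw [ht z]
  have hnn : 0 ≤ ∑ z, (∏ j, |ω j (z j)|) * t z :=
    Finset.sum_nonneg fun z _ => mul_nonneg (Finset.prod_nonneg fun j _ => abs_nonneg _) (ht0 z)
  rw [e, Complex.norm_real, Real.norm_of_nonneg hnn]
  unfold PhiW
  refine (norm_sum_le _ _).trans ?_
  refine Finset.sum_le_sum fun z _ => ?_
  rw [ht z, norm_mul, Complex.norm_real, Complex.norm_real, Real.norm_eq_abs, Real.norm_eq_abs,
    Finset.abs_prod, abs_of_nonneg (ht0 z)]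

end Vale.Agent.Lib.P368
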