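import Vale.Agent.Lib.P368.Normal

/-! # Circuits are unitary; worst-case advantage versus correlation -/

namespace Vale.Agent.Lib.P368

open Matrix Finset

set_option linter.unusedSectionVars false

variable {ι : Type} [Fintype ι] [DecidableEq ι]

theorem prodOp_unitary {u : ι → M2} (hu : LocalU u) : (prodOp u)ᴴ * prodOp u = 1 := by
  rw [prodOp_conjTranspose, prodOp_mul]
  have : (fun i => (u i)ᴴ * u i) = fun _ : ι => (1 : M2) := by
    funext i
    exact hu.star_mul i
  rw [this, prodOp_one]

theorem rlistOp_unitary (l : List (Finset ι × (ι → M2))) (hl : ∀ r ∈ l, ReflValid r) :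
    (rlistOp l)ᴴ * rlistOp l = 1 := by
  induction l with
  | nil => simp [rlistOp]
  | cons r l ih =>
    have hr := hl r List.mem_cons_self
    have hl' : ∀ r ∈ l, ReflValid r := fun r' hr' => hl r' (List.mem_cons_of_mem _ hr')
    have e : rlistOp (r :: l) = reflOp r * rlistOp l := by
      simp [rlistOp]
    rw [e, Matrix.conjTranspose_mul, reflOp_herm hr, Matrix.mul_assoc,
      ← Matrix.mul_assoc (reflOp r), reflOp_mul_self hr, Matrix.one_mul]
    exact ih hl'

theorem RF.unitary {k : ℕ} {X : Op ι} (h : RF k X) : Xᴴ * X = 1 := by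
  induction k generalizing X with
  | zero =>
    have : X = 1 := h
    subst this
    simp
  | succ k ih =>
    obtain ⟨l, X', hl, hX', rfl⟩ := h
    rw [Matrix.conjTranspose_mul, Matrix.mul_assoc, ← Matrix.mul_assoc (rlistOp l)ᴴ,
      rlistOp_unitary l hl.1, Matrix.one_mul]
    exact ih hX'

theorem circuitOp_unitary (C : List (List (Gate ι))) (hC : circuitValid C) :
    (circuitOp C)ᴴ * circuitOp C = 1 := by
  obtain ⟨u, X, hu, hX, heq⟩ := circuit_nf C hC
  rw [heq, Matrix.conjTranspose_mul, Matrix.mul_assoc, ← Matrix.mul_assoc (prodOp u)ᴴ,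
    prodOp_unitary hu, Matrix.one_mul]
  exact hX.unitary

theorem sum_norm_sq_col {U : Op ι} (hU : Uᴴ * U = 1) (y : ι → Bool) :
    ∑ z : ι → Bool, ‖U z y‖ ^ 2 = 1 := by
  have h := congrFun (congrFun hU y) y
  rw [Matrix.mul_apply, Matrix.one_apply_eq] at h
  have h2 : ((∑ z : ι → Bool, ‖U z y‖ ^ 2 : ℝ) : ℂ) = 1 := by
    rw [← h]
    push_cast
    refine Finset.sum_congr rfl fun z _ => ?_
    rw [Matrix.conjTranspose_apply, ← Complex.conj_mul']
    rfl
  exact_mod_cast h2

theorem outProb_add (C : List (List (Gate ι))) (hC : circuitValid C) (o : ι) (y : ι → Bool)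
    (b : Bool) : outProb (circuitOp C) o y b + outProb (circuitOp C) o y (!b) = 1 := by
  rw [← sum_norm_sq_col (circuitOp_unitary C hC) y]
  unfold outProb
  rw [← Finset.sum_add_distrib]
  refine Finset.sum_congr rfl fun z _ => ?_
  by_cases hz : z o = b
  · have : ¬ z o = !b := by
      rw [hz]
      cases b <;> simp
    rw [if_pos hz, if_neg this, add_zero]
  · have : z o = !b := by
      cases hb : b <;> cases hzo : z o <;> simp_all
    rw [if_neg hz, if_pos this, zero_add]

/-- worst-case advantage `ε` forces parity correlation at least `2 ε` -/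
theorem adv_le_corr {n a : ℕ} (C : List (List (Gate (Fin n ⊕ Fin a)))) (hC : circuitValid C)
    (o : Fin n ⊕ Fin a) (ε : ℝ)
    (h : ∀ x : Fin n → Bool, 1 / 2 + ε ≤ outProb (circuitOp C) o (initState x) (parityBit x)) :
    2 * ε ≤ parityCorrelation C o := by
  unfold parityCorrelation
  rw [le_div_iff₀ (by positivity)]
  have hcard : ((Finset.univ : Finset (Fin n → Bool)).card : ℝ) = 2 ^ n := by
    rw [Finset.card_univ, Fintype.card_fun, Fintype.card_bool, Fintype.card_fin]
    push_cast
    rfl
  calc 2 * ε * 2 ^ n = ∑ _x : Fin n → Bool, 2 * ε := by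
        rw [Finset.sum_const, nsmul_eq_mul, hcard]
        ring
    _ ≤ _ := by
        refine Finset.sum_le_sum fun x _ => ?_
        have h1 := h x
        have h2 := outProb_add C hC o (initState x) (parityBit x)
        linarith

end Vale.Agent.Lib.P368
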