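import Vale.Agent.Lib.P368.GateForm

/-! # Normal form of a circuit: local unitaries last -/

namespace Vale.Agent.Lib.P368

open Matrix Finset

set_option linter.unusedSectionVars false

variable {ι : Type} [Fintype ι] [DecidableEq ι]

/-- a family of one-qubit unitaries -/
def LocalU (u : ι → M2) : Prop := ∀ j, u j ∈ Matrix.unitaryGroup Bool ℂ

theorem LocalU.mul_star {u : ι → M2} (hu : LocalU u) (j : ι) : u j * (u j)ᴴ = 1 := by
  have := (Matrix.mem_unitaryGroup_iff).1 (hu j)
  simpa [Matrix.star_eq_conjTranspose] using this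

theorem LocalU.star_mul {u : ι → M2} (hu : LocalU u) (j : ι) : (u j)ᴴ * u j = 1 := by
  have := (Matrix.mem_unitaryGroup_iff').1 (hu j)
  simpa [Matrix.star_eq_conjTranspose] using this

theorem localU_one : LocalU (fun _ : ι => (1 : M2)) := fun _ => one_mem _

theorem refl_push {u : ι → M2} (hu : LocalU u) {r : Finset ι × (ι → M2)} (hr : ReflValid r) :
    reflOp r * prodOp u = prodOp u * reflOp (r.1, fun j => (u j)ᴴ * r.2 j * u j) ∧
      ReflValid (r.1, fun j => (u j)ᴴ * r.2 j * u j) := by
  constructor
  · unfold reflOp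
    simp only [sub_mul, mul_sub, one_mul, mul_one, Matrix.smul_mul, Matrix.mul_smul, prodOp_mul]
    congr 3
    funext j
    rw [← Matrix.mul_assoc, ← Matrix.mul_assoc, hu.mul_star j, Matrix.one_mul]
  · constructor
    · intro j hj
      exact (hr.1 j hj).conj (hu j)
    · intro j hj
      show (u j)ᴴ * r.2 j * u j = 1
      rw [hr.2 j hj, Matrix.mul_one, hu.star_mul j]

theorem layer_nf (L : List (Gate ι)) (hL : layerValid L) (u : ι → M2) (hu : LocalU u) :
    ∃ (u' : ι → M2) (l : List (Finset ι × (ι → M2))), LocalU u' ∧ rlistValid l ∧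
      (∀ r ∈ l, ∃ g ∈ L, r.1 = g.supp) ∧ (layerEntangling L = false → l = []) ∧
      layerOp L * prodOp u = prodOp u' * rlistOp l := by
  induction L with
  | nil =>
    exact ⟨u, [], hu, ⟨by simp, List.Pairwise.nil⟩, by simp, fun _ => rfl,
      by simp [layerOp, rlistOp]⟩
  | cons g L ih =>
    have hL' : layerValid L :=
      ⟨fun g' hg' => hL.1 g' (List.mem_cons_of_mem _ hg'), (List.pairwise_cons.1 hL.2).2⟩
    obtain ⟨u', l, hu', hl, hsupp, hent, heq⟩ := ih hL'
    have hop : layerOp (g :: L) * prodOp u = g.op * (prodOp u' * rlistOp l) := by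
      rw [← heq]
      simp only [layerOp, List.map_cons, List.prod_cons, Matrix.mul_assoc]
    have hg := hL.1 g List.mem_cons_self
    cases g with
    | single i s =>
      refine ⟨fun j => atSite i s j * u' j, l, ?_, hl, ?_, ?_, ?_⟩
      · intro j
        refine mul_mem ?_ (hu' j)
        by_cases hj : j = i
        · subst hj; rw [atSite_self]; exact hg
        · rw [atSite_ne i s hj]; exact one_mem _
      · intro r hr
        obtain ⟨g', hg', h⟩ := hsupp r hr
        exact ⟨g', List.mem_cons_of_mem _ hg', h⟩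
      · intro h
        apply hent
        simpa [layerEntangling, Gate.isMulti] using h
      · rw [hop, single_eq, ← Matrix.mul_assoc, prodOp_mul]
    | toffoli S b =>
      obtain ⟨hp, hv⟩ := refl_push hu' (tof_valid S b)
      refine ⟨u', (insert b S, fun j => (u' j)ᴴ * tofQ S b j * u' j) :: l, hu', ⟨?_, ?_⟩, ?_, ?_,
        ?_⟩
      · intro r hr
        rcases List.mem_cons.1 hr with rfl | hr
        · exact hv
        · exact hl.1 r hr
      · refine List.pairwise_cons.2 ⟨?_, hl.2⟩
        intro r hr
        obtain ⟨g', hg', h⟩ := hsupp r hr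
        have := (List.pairwise_cons.1 hL.2).1 g' hg'
        rw [h]
        exact this
      · intro r hr
        rcases List.mem_cons.1 hr with rfl | hr
        · exact ⟨_, List.mem_cons_self, rfl⟩
        · obtain ⟨g', hg', h⟩ := hsupp r hr
          exact ⟨g', List.mem_cons_of_mem _ hg', h⟩
      · intro h
        simp [layerEntangling, Gate.isMulti] at h
      · rw [hop, toffoli_eq S b hg.2, ← Matrix.mul_assoc, hp]
        simp only [rlistOp, List.map_cons, List.prod_cons, Matrix.mul_assoc]

/-- products of `k` layers of reflections -/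
def RF : ℕ → Op ι → Prop
  | 0, X => X = 1
  | k + 1, X => ∃ (l : List (Finset ι × (ι → M2))) (X' : Op ι),
      rlistValid l ∧ RF k X' ∧ X = rlistOp l * X'

theorem RF.succ {k : ℕ} {X : Op ι} (h : RF k X) : RF (k + 1) X :=
  ⟨[], X, ⟨by simp, List.Pairwise.nil⟩, h, by simp [rlistOp]⟩

theorem RF.mono {k m : ℕ} {X : Op ι} (h : RF k X) (hkm : k ≤ m) : RF m X := by
  induction hkm with
  | refl => exact h
  | step _ ih => exact ih.succ

theorem circuit_nf_aux (C : List (List (Gate ι))) (hC : circuitValid C) (U : Op ι) (k : ℕ)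
    (hU : ∃ (u : ι → M2) (X : Op ι), LocalU u ∧ RF k X ∧ U = prodOp u * X) :
    ∃ (u : ι → M2) (X : Op ι), LocalU u ∧ RF (k + entanglingDepth C) X ∧
      C.foldl (fun U L => layerOp L * U) U = prodOp u * X := by
  induction C generalizing U k with
  | nil => simpa [entanglingDepth] using hU
  | cons L C ih =>
    obtain ⟨u, X, hu, hX, rfl⟩ := hU
    have hL := hC L List.mem_cons_self
    have hC' : circuitValid C := fun L' hL' => hC L' (List.mem_cons_of_mem _ hL')
    obtain ⟨u', l, hu', hl, -, hent, heq⟩ := layer_nf L hL u hu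
    rw [List.foldl_cons, ← Matrix.mul_assoc, heq, Matrix.mul_assoc]
    by_cases hE : layerEntangling L = true
    · have := ih hC' (prodOp u' * (rlistOp l * X)) (k + 1)
        ⟨u', rlistOp l * X, hu', ⟨l, X, hl, hX, rfl⟩, rfl⟩
      have e : k + entanglingDepth (L :: C) = k + 1 + entanglingDepth C := by
        simp only [entanglingDepth, List.countP_cons, hE, if_true]
        ring
      rw [e]
      exact this
    · have hE' : layerEntangling L = false := by simpa using hE
      have hl0 := hent hE'
      subst hl0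
      have := ih hC' (prodOp u' * (rlistOp [] * X)) k
        ⟨u', X, hu', hX, by simp [rlistOp]⟩
      have e : k + entanglingDepth (L :: C) = k + entanglingDepth C := by
        simp only [entanglingDepth, List.countP_cons, hE']
        simp
      rw [e]
      exact this

theorem circuit_nf (C : List (List (Gate ι))) (hC : circuitValid C) :
    ∃ (u : ι → M2) (X : Op ι), LocalU u ∧ RF (entanglingDepth C) X ∧
      circuitOp C = prodOp u * X := by
  have := circuit_nf_aux C hC 1 0 ⟨fun _ => 1, 1, localU_one, rfl, by rw [prodOp_one, mul_one]⟩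
  simpa [circuitOp] using this

theorem circuit_nf_two (C : List (List (Gate ι))) (hC : circuitValid C)
    (hd : entanglingDepth C ≤ 2) :
    ∃ (u : ι → M2) (l₂ l₁ : List (Finset ι × (ι → M2))), LocalU u ∧ rlistValid l₂ ∧
      rlistValid l₁ ∧ circuitOp C = prodOp u * (rlistOp l₂ * rlistOp l₁) := by
  obtain ⟨u, X, hu, hX, heq⟩ := circuit_nf C hC
  obtain ⟨l₂, X', h₂, ⟨l₁, X'', h₁, hX'', rfl⟩, rfl⟩ := hX.mono hd
  have : X'' = 1 := hX''
  subst this
  exact ⟨u, l₂, l₁, hu, h₂, h₁, by rw [heq, Matrix.mul_one]⟩

end Vale.Agent.Lib.P368
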