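import Vale.Agent.Lib.P368.BlockBound

/-! # Two layers of reflections -/

namespace Vale.Agent.Lib.P368

open Matrix Finset

set_option linter.unusedSectionVars false

variable {ι : Type} [Fintype ι] [DecidableEq ι]

/-- product operators reached from the output projector through the top gate -/
def Good (o : ι) (B : ι → M2) : Prop := (∀ j, j ≠ o → B j = 1 ∨ Pr (B j)) ∧ K1 (B o)

theorem Good.site {o : ι} {B : ι → M2} (h : Good o B) (j : ι) : B j = 1 ∨ K1 (B j) := by
  by_cases hj : j = o
  · subst hj; exact Or.inr h.2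
  · exact (h.1 j hj).imp id Pr.k1

/-- number of input qubits -/
def numInp (inp : ι → Bool) : ℕ := (Finset.univ.filter (fun j => inp j = true)).card

theorem layer1_bound (inp : ι → Bool) (o : ι) (B : ι → M2) (hB : Good o B)
    (l : List (Finset ι × (ι → M2))) (hl : rlistValid l) :
    ‖Phi inp (conjBy l (prodOp B))‖ ≤ 9 * gam ^ numInp inp := by
  rw [Phi_conjBy inp l hl.1 B]
  have h := Ev_bound inp o (fun j => gw (inp j)) (fun j => gw_nonneg _) B
    (fun j => (site_bound0 (hB.site j) _).trans (hw_le_gw _)) l hl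
    (fun r hr => by
      by_cases ho : o ∈ r.1
      · simp only [ho, if_true]
        exact block_bound_gen inp r (hl.1 r hr) B (fun j _ => hB.site j)
      · simp only [ho, if_false, one_mul]
        exact block_bound_proj inp r (hl.1 r hr) B
          (fun j hj => hB.1 j (fun h => ho (h ▸ hj))))
    Finset.univ (fun r _ => Finset.subset_univ _)
  simp only [Finset.mem_univ, if_true] at h
  rw [prod_gw] at h
  exact h

theorem refl_commute {r : Finset ι × (ι → M2)} (hr : ReflValid r) {B : ι → M2}
    (hB : ∀ j ∈ r.1, B j = 1) : reflOp r * prodOp B * reflOp r = prodOp B := by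
  have hc : Commute (prodOp r.2) (prodOp B) := by
    apply prodOp_commute
    intro j
    by_cases hj : j ∈ r.1
    · rw [hB j hj]; exact Commute.one_right _
    · rw [hr.2 j hj]; exact Commute.one_left _
  have hc2 : Commute (reflOp r) (prodOp B) := by
    unfold reflOp
    exact (Commute.one_left _).sub_left (hc.smul_left _)
  rw [hc2.eq, Matrix.mul_assoc, reflOp_mul_self hr, Matrix.mul_one]

theorem conj_fix (l : List (Finset ι × (ι → M2))) (hl : ∀ r ∈ l, ReflValid r) (B : ι → M2)
    (hB : ∀ r ∈ l, ∀ j ∈ r.1, B j = 1) : conjBy l (prodOp B) = prodOp B := by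
  induction l with
  | nil => exact conjBy_nil _
  | cons r l ih =>
    rw [conjBy_cons (hl r List.mem_cons_self), refl_commute (hl r List.mem_cons_self)
      (hB r List.mem_cons_self)]
    exact ih (fun s hs => hl s (List.mem_cons_of_mem _ hs))
      (fun s hs => hB s (List.mem_cons_of_mem _ hs))

/-- the one-site operator `π` at `o` -/
def atSite (o : ι) (π : M2) : ι → M2 := Function.update (fun _ => 1) o π

theorem atSite_self (o : ι) (π : M2) : atSite o π o = π := by simp [atSite]

theorem atSite_ne (o : ι) (π : M2) {j : ι} (h : j ≠ o) : atSite o π j = 1 := by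
  simp [atSite, h]

theorem top_bound (inp : ι → Bool) (o : ι) (π : M2) (hπ : Pr π)
    (l₁ l₂ : List (Finset ι × (ι → M2))) (h₁ : rlistValid l₁) (h₂ : rlistValid l₂) :
    ‖Phi inp (conjBy l₁ (conjBy l₂ (prodOp (atSite o π))))‖ ≤ 81 * gam ^ numInp inp := by
  set K := 9 * gam ^ numInp inp with hK
  have hK0 : 0 ≤ K := by have := gam_pos; positivity
  have hgood0 : Good o (atSite o π) :=
    ⟨fun j hj => Or.inl (atSite_ne o π hj), by rw [atSite_self]; exact hπ.k1⟩
  have goal : ‖Phi inp (conjBy l₁ (conjBy l₂ (prodOp (atSite o π))))‖ ≤ 9 * K := by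
    induction l₂ with
    | nil =>
      rw [conjBy_nil]
      have := layer1_bound inp o _ hgood0 l₁ h₁
      linarith
    | cons r l ih =>
      have hr := h₂.1 r List.mem_cons_self
      have hl : rlistValid l :=
        ⟨fun s hs => h₂.1 s (List.mem_cons_of_mem _ hs), (List.pairwise_cons.1 h₂.2).2⟩
      have hd : ∀ s ∈ l, Disjoint r.1 s.1 := (List.pairwise_cons.1 h₂.2).1
      rw [conjBy_cons hr]
      by_cases ho : o ∈ r.1
      · have hone : ∀ s ∈ l, ∀ j ∈ s.1, r.2 j = 1 ∧ atSite o π j = 1 := by
          intro s hs j hj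
          have hjr : j ∉ r.1 := fun h => Finset.disjoint_left.1 (hd s hs) h hj
          exact ⟨hr.2 j hjr, atSite_ne o π (fun h => hjr (h ▸ ho))⟩
        rw [refl_conj_prodOp, conjBy_add, conjBy_sub, conjBy_sub, conjBy_smul, conjBy_smul,
          conjBy_smul, conj_fix l hl.1 _ (fun s hs j hj => (hone s hs j hj).2),
          conj_fix l hl.1 (fun j => r.2 j * atSite o π j)
            (fun s hs j hj => by simp only [(hone s hs j hj).1, (hone s hs j hj).2, mul_one]),
          conj_fix l hl.1 (fun j => atSite o π j * r.2 j)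
            (fun s hs j hj => by simp only [(hone s hs j hj).1, (hone s hs j hj).2, mul_one]),
          conj_fix l hl.1 (fun j => r.2 j * atSite o π j * r.2 j)
            (fun s hs j hj => by simp only [(hone s hs j hj).1, (hone s hs j hj).2, mul_one]),
          conjBy_add, conjBy_sub, conjBy_sub, conjBy_smul, conjBy_smul, conjBy_smul,
          Phi_add, Phi_sub, Phi_sub, Phi_smul, Phi_smul, Phi_smul]
        have hq : ∀ j, r.2 j = 1 ∨ Pr (r.2 j) := fun j => by
          by_cases hj : j ∈ r.1
          · exact Or.inr (hr.1 j hj)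
          · exact Or.inl (hr.2 j hj)
        have g1 : Good o (fun j => r.2 j * atSite o π j) :=
          ⟨fun j hj => by simp only [atSite_ne o π hj, mul_one]; exact hq j,
            by simp only [atSite_self]; exact (hr.1 o ho).k1.mul hπ.k1⟩
        have g2 : Good o (fun j => atSite o π j * r.2 j) :=
          ⟨fun j hj => by simp only [atSite_ne o π hj, one_mul]; exact hq j,
            by simp only [atSite_self]; exact hπ.k1.mul (hr.1 o ho).k1⟩
        have g3 : Good o (fun j => r.2 j * atSite o π j * r.2 j) :=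
          ⟨fun j hj => by simp only [atSite_ne o π hj, mul_one, hr.idem]; exact hq j,
            by simp only [atSite_self]; exact ((hr.1 o ho).k1.mul hπ.k1).mul (hr.1 o ho).k1⟩
        have b0 := layer1_bound inp o _ hgood0 l₁ h₁
        have b1 := layer1_bound inp o _ g1 l₁ h₁
        have b2 := layer1_bound inp o _ g2 l₁ h₁
        have b3 := layer1_bound inp o _ g3 l₁ h₁
        set a := Phi inp (conjBy l₁ (prodOp (atSite o π)))
        set b := Phi inp (conjBy l₁ (prodOp (fun j => r.2 j * atSite o π j)))
        set c := Phi inp (conjBy l₁ (prodOp (fun j => atSite o π j * r.2 j)))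
        set d := Phi inp (conjBy l₁ (prodOp (fun j => r.2 j * atSite o π j * r.2 j)))
        calc ‖a - 2 * b - 2 * c + 4 * d‖ ≤ ‖a - 2 * b - 2 * c‖ + ‖4 * d‖ := norm_add_le _ _
          _ ≤ (‖a - 2 * b‖ + ‖2 * c‖) + ‖4 * d‖ := by gcongr; exact norm_sub_le _ _
          _ ≤ ((‖a‖ + ‖2 * b‖) + ‖2 * c‖) + ‖4 * d‖ := by gcongr; exact norm_sub_le _ _
          _ = ‖a‖ + 2 * ‖b‖ + 2 * ‖c‖ + 4 * ‖d‖ := by simp
          _ ≤ 9 * K := by linarith
      · rw [refl_commute hr (fun j hj => atSite_ne o π (fun h => ho (h ▸ hj)))]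
        exact ih hl
  calc _ ≤ 9 * K := goal
    _ = 81 * gam ^ numInp inp := by rw [hK]; ring

end Vale.Agent.Lib.P368
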