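import Mathlib

/-!
# QAC circuits: the model of problem P368

Qubits are indexed by a finite type `ι`; the computational basis is `ι → Bool`;
operators are complex matrices over the computational basis.
-/

namespace Vale.Agent.Lib.P368

/-- Operators on one qubit. -/
abbrev M2 : Type := Matrix Bool Bool ℂ

/-- Operators on the qubits indexed by `ι`, written in the computational basis. -/
abbrev Op (ι : Type) : Type := Matrix (ι → Bool) (ι → Bool) ℂ

/-- The gates: a one-qubit operator `u` on qubit `i`, or a generalized Toffoli gate with
control set `S` and target `b`. -/
inductive Gate (ι : Type) : Type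
  | single (i : ι) (u : M2) : Gate ι
  | toffoli (S : Finset ι) (b : ι) : Gate ι

variable {ι : Type} [Fintype ι] [DecidableEq ι]

/-- The qubits a gate acts on. -/
def Gate.supp : Gate ι → Finset ι
  | Gate.single i _ => {i}
  | Gate.toffoli S b => insert b S

/-- One-qubit gates are unitary; a Toffoli gate has at least one control and its target is not
a control. -/
def Gate.Valid : Gate ι → Prop
  | Gate.single _ u => u ∈ Matrix.unitaryGroup Bool ℂ
  | Gate.toffoli S b => S.Nonempty ∧ b ∉ S

/-- Is the gate a multiqubit gate? -/
def Gate.isMulti : Gate ι → Bool
  | Gate.single _ _ => false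
  | Gate.toffoli _ _ => true

/-- The action of a Toffoli gate on basis states: the target is flipped iff all controls are
`true`. -/
def toffoliMap (S : Finset ι) (b : ι) (y : ι → Bool) : ι → Bool :=
  Function.update y b (xor (y b) (decide (∀ j ∈ S, y j = true)))

/-- The matrix of a gate. -/
def Gate.op : Gate ι → Op ι
  | Gate.single i u => fun x y => if ∀ j, j ≠ i → x j = y j then u (x i) (y i) else 0
  | Gate.toffoli S b => fun x y => if x = toffoliMap S b y then 1 else 0

/-- A layer is a list of valid gates with pairwise disjoint supports. -/
def layerValid (L : List (Gate ι)) : Prop :=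
  (∀ g ∈ L, g.Valid) ∧ L.Pairwise (fun g h => Disjoint g.supp h.supp)

/-- The matrix of a layer. -/
def layerOp (L : List (Gate ι)) : Op ι := (L.map Gate.op).prod

/-- A layer is entangling if it contains a multiqubit gate. -/
def layerEntangling (L : List (Gate ι)) : Bool := L.any Gate.isMulti

/-- A circuit is a list of layers, the head of the list being applied first. -/
def circuitValid (C : List (List (Gate ι))) : Prop := ∀ L ∈ C, layerValid L

/-- The matrix of a circuit. -/
def circuitOp (C : List (List (Gate ι))) : Op ι := C.foldl (fun U L => layerOp L * U) 1

/-- The number of layers containing a multiqubit gate. -/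
def entanglingDepth (C : List (List (Gate ι))) : ℕ := C.countP layerEntangling

/-- The probability that the computational-basis measurement of qubit `o` in the state
`U |y⟩` gives `b`. -/
noncomputable def outProb (U : Op ι) (o : ι) (y : ι → Bool) (b : Bool) : ℝ :=
  ∑ z : ι → Bool, if z o = b then ‖U z y‖ ^ 2 else 0

/-- The initial basis state: the input `x` on the `n` input qubits, `false` on the `a`
ancillas. -/
def initState {n a : ℕ} (x : Fin n → Bool) : Fin n ⊕ Fin a → Bool :=
  Sum.elim x (fun _ => false)

/-- The parity of a bit string. -/
def parityBit {n : ℕ} (x : Fin n → Bool) : Bool := decide (Odd (∑ i, (x i).toNat))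

/-- Parity correlation: the average over uniform `x` of `Pr[correct] - Pr[wrong]`. -/
noncomputable def parityCorrelation {n a : ℕ} (C : List (List (Gate (Fin n ⊕ Fin a))))
    (o : Fin n ⊕ Fin a) : ℝ :=
  (∑ x : Fin n → Bool, (outProb (circuitOp C) o (initState x) (parityBit x)
    - outProb (circuitOp C) o (initState x) (!parityBit x))) / 2 ^ n

end Vale.Agent.Lib.P368
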