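import Vale.Agent.Lib.P368.Defs

/-! # A depth-two circuit with parity correlation `4 * 2 ^ (-n / 2)` -/

namespace Vale.Agent.Lib.P368

namespace Ex

open Finset

section general

variable {ι : Type} [Fintype ι] [DecidableEq ι]

/-- the matrix of a map of basis states -/
def permOp (f : (ι → Bool) → (ι → Bool)) : Op ι := fun x y => if x = f y then 1 else 0

lemma permOp_mul (f g : (ι → Bool) → (ι → Bool)) : permOp f * permOp g = permOp (f ∘ g) := by
  ext x y
  simp only [Matrix.mul_apply, permOp]
  rw [Finset.sum_eq_single (g y)]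
  · simp
  · intro z _ hz
    simp [hz]
  · intro h
    exact absurd (mem_univ _) h

omit [DecidableEq ι] in
lemma permOp_id : permOp (id : (ι → Bool) → (ι → Bool)) = (1 : Op ι) := by
  ext x y
  simp [permOp, Matrix.one_apply]

lemma op_toffoli (S : Finset ι) (b : ι) :
    Gate.op (Gate.toffoli S b) = permOp (toffoliMap S b) := rfl

/-- the composite of a list of Toffoli maps -/
def listMap : List (Finset ι × ι) → (ι → Bool) → (ι → Bool)
  | [] => id
  | p :: L => toffoliMap p.1 p.2 ∘ listMap L

lemma layerOp_map (L : List (Finset ι × ι)) :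
    layerOp (L.map (fun p => Gate.toffoli p.1 p.2)) = permOp (listMap L) := by
  induction L with
  | nil => simp [layerOp, listMap, permOp_id]
  | cons p L ih =>
    unfold layerOp at ih ⊢
    simp only [List.map_cons, List.prod_cons]
    rw [ih, op_toffoli, permOp_mul]
    rfl

lemma outProb_permOp (F : (ι → Bool) → (ι → Bool)) (o : ι) (y : ι → Bool) (b : Bool) :
    outProb (permOp F) o y b = if F y o = b then 1 else 0 := by
  unfold outProb
  rw [Finset.sum_eq_single (F y)]
  · simp [permOp]
  · intro z _ hz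
    simp [permOp, hz]
  · intro h
    exact absurd (mem_univ _) h

end general

/-- the sign of a bit -/
def sgn (b : Bool) : ℝ := if b = true then -1 else 1

/-- the indicator of a bit -/
def ind (b : Bool) : ℝ := if b = true then 1 else 0

lemma sgn_xor (a b : Bool) : sgn (xor a b) = sgn a * sgn b := by
  cases a <;> cases b <;> simp [sgn]

lemma sgn_mul_self (a : Bool) : sgn a * sgn a = 1 := by
  cases a <;> simp [sgn]

lemma term_eq (a p : Bool) :
    ((if a = p then 1 else 0 : ℝ) - (if a = !p then 1 else 0)) = sgn a * sgn p := by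
  cases a <;> cases p <;> simp [sgn]

lemma sgn_eq_pow (b : Bool) : sgn b = (-1 : ℝ) ^ b.toNat := by
  cases b <;> simp [sgn]

lemma sgn_parityBit {n : ℕ} (x : Fin n → Bool) : sgn (parityBit x) = ∏ j, sgn (x j) := by
  rw [Finset.prod_congr rfl (fun j _ => sgn_eq_pow (x j)), Finset.prod_pow_eq_pow_sum]
  unfold parityBit sgn
  by_cases h : Odd (∑ i, (x i).toNat)
  · rw [h.neg_one_pow]
    simp [h]
  · rw [(Nat.not_odd_iff_even.1 h).neg_one_pow]
    simp [h]

section circuit

variable {k n : ℕ} (e : Fin (k + 1) ⊕ Fin (k + 1) ≃ Fin n)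

/-- control qubits of the first layer -/
def qc (i : Fin (k + 1)) : Fin n ⊕ Fin 0 := Sum.inl (e (Sum.inl i))

/-- target qubits of the first layer -/
def qt (i : Fin (k + 1)) : Fin n ⊕ Fin 0 := Sum.inl (e (Sum.inr i))

lemma qc_ne_qt (i j : Fin (k + 1)) : qc e i ≠ qt e j := by
  intro h
  have h1 := e.injective (Sum.inl_injective h)
  exact Sum.inl_ne_inr h1

lemma qt_inj {i j : Fin (k + 1)} (h : qt e i = qt e j) : i = j :=
  Sum.inr_injective (e.injective (Sum.inl_injective h))

lemma qc_inj {i j : Fin (k + 1)} (h : qc e i = qc e j) : i = j :=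
  Sum.inl_injective (e.injective (Sum.inl_injective h))

/-- the controlled-not gates of the first layer -/
def cnots (l : List (Fin (k + 1))) : List (Finset (Fin n ⊕ Fin 0) × (Fin n ⊕ Fin 0)) :=
  l.map (fun i => ({qc e i}, qt e i))

lemma listMap_cnots (l : List (Fin (k + 1))) (hl : l.Nodup) (y : Fin n ⊕ Fin 0 → Bool) :
    (∀ i, listMap (cnots e l) y (qc e i) = y (qc e i)) ∧
    (∀ i, listMap (cnots e l) y (qt e i)
      = if i ∈ l then xor (y (qt e i)) (y (qc e i)) else y (qt e i)) := by
  induction l with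
  | nil => simp [cnots, listMap]
  | cons a l ih =>
    obtain ⟨ha, hl'⟩ := List.nodup_cons.1 hl
    obtain ⟨ih1, ih2⟩ := ih hl'
    have hstep : listMap (cnots e (a :: l)) y
        = toffoliMap {qc e a} (qt e a) (listMap (cnots e l) y) := rfl
    rw [hstep]
    unfold toffoliMap
    constructor
    · intro i
      rw [Function.update_of_ne (qc_ne_qt e i a), ih1]
    · intro i
      by_cases hia : i = a
      · subst hia
        rw [Function.update_self, ih2, if_neg ha, if_pos List.mem_cons_self]
        congr 1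
        simp [ih1]
      · rw [Function.update_of_ne (fun h => hia (qt_inj e h)), ih2]
        simp [hia]

/-- controls of the second layer -/
def ctrl2 : Finset (Fin n ⊕ Fin 0) := (univ.filter (fun i : Fin (k + 1) => i ≠ 0)).image (qt e)

/-- first layer -/
def layer1 : List (Gate (Fin n ⊕ Fin 0)) :=
  (cnots e (List.finRange (k + 1))).map (fun p => Gate.toffoli p.1 p.2)

/-- second layer -/
def layer2 : List (Gate (Fin n ⊕ Fin 0)) :=
  [(ctrl2 e, qt e 0)].map (fun p => Gate.toffoli p.1 p.2)

/-- the pair parities -/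
def pairXor (x : Fin n → Bool) (i : Fin (k + 1)) : Bool :=
  xor (x (e (Sum.inr i))) (x (e (Sum.inl i)))

/-- the conjunction of all bits but the first -/
def andTail (w : Fin (k + 1) → Bool) : Bool := decide (∀ i, i ≠ 0 → w i = true)

/-- the classical map computed by the circuit -/
def circMap : (Fin n ⊕ Fin 0 → Bool) → (Fin n ⊕ Fin 0 → Bool) :=
  listMap [(ctrl2 e, qt e 0)] ∘ listMap (cnots e (List.finRange (k + 1)))

lemma circuitOp_eq : circuitOp [layer1 e, layer2 e] = permOp (circMap e) := by
  have : circuitOp [layer1 e, layer2 e] = layerOp (layer2 e) * (layerOp (layer1 e) * 1) := rfl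
  rw [this, mul_one]
  unfold layer1 layer2
  rw [layerOp_map, layerOp_map, permOp_mul]
  rfl

lemma circMap_out (x : Fin n → Bool) :
    circMap e (initState x) (qt e 0) = xor (pairXor e x 0) (andTail (pairXor e x)) := by
  obtain ⟨-, h2⟩ := listMap_cnots e (List.finRange (k + 1)) (List.nodup_finRange _) (initState x)
  have h3 : ∀ i, listMap (cnots e (List.finRange (k + 1))) (initState x) (qt e i)
      = pairXor e x i := by
    intro i
    rw [h2, if_pos (List.mem_finRange i)]
    rfl
  have hstep : circMap e (initState x) = toffoliMap (ctrl2 e) (qt e 0)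
      (listMap (cnots e (List.finRange (k + 1))) (initState x)) := rfl
  rw [hstep]
  unfold toffoliMap
  rw [Function.update_self, h3]
  congr 1
  unfold andTail
  rw [decide_eq_decide]
  unfold ctrl2
  constructor
  · intro h i hi
    rw [← h3]
    exact h _ (Finset.mem_image_of_mem _ (Finset.mem_filter.2 ⟨mem_univ _, hi⟩))
  · intro h j hj
    obtain ⟨i, hi, rfl⟩ := Finset.mem_image.1 hj
    rw [h3]
    exact h i (Finset.mem_filter.1 hi).2


lemma layer1_valid : layerValid (layer1 e) := by
  unfold layer1 cnots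
  rw [List.map_map]
  constructor
  · intro g hg
    obtain ⟨i, -, rfl⟩ := List.mem_map.1 hg
    refine ⟨Finset.singleton_nonempty _, ?_⟩
    rw [Finset.mem_singleton]
    exact (qc_ne_qt e i i).symm
  · rw [List.pairwise_map]
    refine List.Pairwise.imp ?_ (List.nodup_finRange (k + 1))
    intro i j hij
    change Disjoint (insert (qt e i) {qc e i}) (insert (qt e j) {qc e j})
    rw [Finset.disjoint_left]
    intro a ha hb
    rw [Finset.mem_insert, Finset.mem_singleton] at ha hb
    rcases ha with rfl | rfl <;> rcases hb with hb | hb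
    · exact hij (qt_inj e hb)
    · exact qc_ne_qt e j i hb.symm
    · exact qc_ne_qt e i j hb
    · exact hij (qc_inj e hb)

lemma layer2_valid (hk : 1 ≤ k) : layerValid (layer2 e) := by
  unfold layer2
  constructor
  · intro g hg
    rw [List.map_singleton, List.mem_singleton] at hg
    subst hg
    constructor
    · refine ⟨qt e ⟨1, by omega⟩, ?_⟩
      unfold ctrl2
      refine Finset.mem_image_of_mem _ (Finset.mem_filter.2 ⟨mem_univ _, ?_⟩)
      intro h
      have := congrArg Fin.val h
      simp at this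
    · unfold ctrl2
      intro h
      obtain ⟨i, hi, h2⟩ := Finset.mem_image.1 h
      exact (Finset.mem_filter.1 hi).2 (qt_inj e h2)
  · rw [List.map_singleton]
    exact List.pairwise_singleton _ _

lemma depth_eq : entanglingDepth [layer1 e, layer2 e] = 2 := by
  have h1 : layerEntangling (layer1 e) = true := by
    unfold layerEntangling layer1 cnots
    rw [List.any_eq_true]
    refine ⟨Gate.toffoli {qc e 0} (qt e 0), ?_, rfl⟩
    rw [List.map_map]
    exact List.mem_map.2 ⟨0, List.mem_finRange _, rfl⟩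
  have h2 : layerEntangling (layer2 e) = true := rfl
  unfold entanglingDepth
  simp [h1, h2]

/-- the summand as a function of the pair parities -/
def gfun (w : Fin (k + 1) → Bool) : ℝ := sgn (w 0) * sgn (andTail w) * ∏ i, sgn (w i)

lemma prod_sgn_eq (x : Fin n → Bool) : ∏ j, sgn (x j) = ∏ i, sgn (pairXor e x i) := by
  rw [← Equiv.prod_comp e, Fintype.prod_sum_type, ← Finset.prod_mul_distrib]
  refine Finset.prod_congr rfl (fun i _ => ?_)
  unfold pairXor
  rw [sgn_xor, mul_comm]

lemma corr_eq : parityCorrelation [layer1 e, layer2 e] (qt e 0)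
    = (∑ x : Fin n → Bool, gfun (pairXor e x)) / 2 ^ n := by
  unfold parityCorrelation
  congr 1
  refine Finset.sum_congr rfl (fun x _ => ?_)
  rw [circuitOp_eq, outProb_permOp, outProb_permOp, term_eq, circMap_out, sgn_xor, sgn_parityBit,
    prod_sgn_eq e]
  rfl


/-- splitting an input into its control bits and its target bits -/
def splitEquiv : (Fin n → Bool) ≃ (Fin (k + 1) → Bool) × (Fin (k + 1) → Bool) :=
  (Equiv.arrowCongr e (Equiv.refl Bool)).symm.trans (Equiv.sumArrowEquivProdArrow _ _ _)

lemma xor_bijective (u : Fin (k + 1) → Bool) :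
    Function.Bijective (fun (v : Fin (k + 1) → Bool) (i : Fin (k + 1)) => xor (v i) (u i)) := by
  apply Function.Involutive.bijective
  intro v
  funext i
  simp

lemma sum_gfun_pairXor :
    ∑ x : Fin n → Bool, gfun (pairXor e x) = 2 ^ (k + 1) * ∑ w : Fin (k + 1) → Bool, gfun w := by
  have h1 : ∑ x : Fin n → Bool, gfun (pairXor e x)
      = ∑ p : (Fin (k + 1) → Bool) × (Fin (k + 1) → Bool), gfun (fun i => xor (p.2 i) (p.1 i)) :=
    Equiv.sum_comp (splitEquiv e)
      (fun p : (Fin (k + 1) → Bool) × (Fin (k + 1) → Bool) => gfun (fun i => xor (p.2 i) (p.1 i)))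
  rw [h1, Fintype.sum_prod_type]
  have h2 : ∀ u : Fin (k + 1) → Bool, ∑ v : Fin (k + 1) → Bool, gfun (fun i => xor (v i) (u i))
      = ∑ w : Fin (k + 1) → Bool, gfun w := fun u => (xor_bijective u).sum_comp gfun
  rw [Finset.sum_congr rfl (fun u _ => h2 u), Finset.sum_const, Finset.card_univ]
  simp

end circuit

lemma sum_prod_tail (k : ℕ) (f : Bool → ℝ) :
    ∑ w : Fin (k + 1) → Bool, ∏ i : Fin k, f (w i.succ) = 2 * (f true + f false) ^ k := by
  have h1 : ∀ w : Fin (k + 1) → Bool, ∏ i : Fin k, f (w i.succ)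
      = ∏ i : Fin (k + 1), (if i = 0 then 1 else f (w i)) := by
    intro w
    rw [Fin.prod_univ_succ]
    simp [Fin.succ_ne_zero]
  have h2 := Finset.prod_univ_sum (fun _ : Fin (k + 1) => (univ : Finset Bool))
    (fun (i : Fin (k + 1)) (b : Bool) => if i = 0 then (1 : ℝ) else f b)
  rw [Fintype.piFinset_univ] at h2
  rw [Finset.sum_congr rfl (fun w _ => h1 w), ← h2, Fin.prod_univ_succ]
  simp [Fin.succ_ne_zero]

lemma sgn_andTail {k : ℕ} (w : Fin (k + 1) → Bool) :
    sgn (andTail w) = 1 - 2 * ∏ i : Fin k, ind (w i.succ) := by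
  by_cases h : ∀ i : Fin k, w i.succ = true
  · have h1 : andTail w = true := by
      unfold andTail
      rw [decide_eq_true_iff]
      intro i hi
      obtain ⟨j, rfl⟩ := Fin.exists_succ_eq.2 hi
      exact h j
    rw [h1, Finset.prod_eq_one (fun i _ => by rw [h i]; rfl)]
    norm_num [sgn]
  · have h1 : andTail w = false := by
      unfold andTail
      rw [decide_eq_false_iff_not]
      intro h2
      exact h (fun i => h2 _ (Fin.succ_ne_zero i))
    rw [not_forall] at h
    obtain ⟨i, hi⟩ := h
    rw [h1, Finset.prod_eq_zero (mem_univ i) (by simp [ind, hi])]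
    norm_num [sgn]

lemma gfun_eq {k : ℕ} (w : Fin (k + 1) → Bool) :
    gfun w = ∏ i : Fin k, sgn (w i.succ) - 2 * ∏ i : Fin k, (ind (w i.succ) * sgn (w i.succ)) := by
  unfold gfun
  rw [Fin.prod_univ_succ, sgn_andTail, Finset.prod_mul_distrib]
  have := sgn_mul_self (w 0)
  linear_combination ((1 - 2 * ∏ i : Fin k, ind (w i.succ)) * ∏ i : Fin k, sgn (w i.succ)) * this

lemma sum_gfun {k : ℕ} (hk : 1 ≤ k) :
    ∑ w : Fin (k + 1) → Bool, gfun w = -4 * (-1) ^ k := by
  rw [Finset.sum_congr rfl (fun w _ => gfun_eq w), Finset.sum_sub_distrib, ← Finset.mul_sum,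
    sum_prod_tail k sgn, sum_prod_tail k (fun b => ind b * sgn b)]
  have h0 : (sgn true + sgn false) = 0 := by norm_num [sgn]
  have h1 : (ind true * sgn true + ind false * sgn false) = -1 := by norm_num [sgn, ind]
  rw [h0, h1, zero_pow (by omega)]
  ring

end Ex

open Ex in
/-- For `n = 2 k + 2` inputs and no ancillas there is a circuit with two layers of (generalized)
Toffoli gates whose parity correlation has absolute value `2 * (1/2) ^ k = 4 * 2 ^ (-n/2)`. -/
theorem exists_example (k : ℕ) (hk : 1 ≤ k) :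
    ∃ (C : List (List (Gate (Fin (2 * k + 2) ⊕ Fin 0)))) (o : Fin (2 * k + 2) ⊕ Fin 0),
      circuitValid C ∧ entanglingDepth C = 2 ∧
        |parityCorrelation C o| = 2 * (1 / 2 : ℝ) ^ k := by
  let e : Fin (k + 1) ⊕ Fin (k + 1) ≃ Fin (2 * k + 2) :=
    finSumFinEquiv.trans (finCongr (by omega))
  refine ⟨[layer1 e, layer2 e], qt e 0, ?_, depth_eq e, ?_⟩
  · intro L hL
    rw [List.mem_cons, List.mem_singleton] at hL
    rcases hL with rfl | rfl
    · exact layer1_valid e
    · exact layer2_valid e hk
  · rw [corr_eq, sum_gfun_pairXor, sum_gfun hk, abs_div, abs_mul, abs_mul, abs_pow, abs_pow,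
      abs_pow]
    have h2 : (2 : ℝ) ^ (2 * k + 2) = 2 ^ (k + 1) * (2 * 2 ^ k) := by ring
    have h3 : (0 : ℝ) < 2 ^ k := by positivity
    have h4 : (0 : ℝ) < 2 ^ (k + 1) := by positivity
    have h5 : (1 / 2 : ℝ) ^ k = 1 / 2 ^ k := by rw [div_pow, one_pow]
    norm_num
    rw [h2, h5]
    field_simp
    ring

end Vale.Agent.Lib.P368
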