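import Vale.Agent.Lib.P368.Top

/-! # Gates as product operators and reflections -/

namespace Vale.Agent.Lib.P368

open Matrix Finset

set_option linter.unusedSectionVars false

variable {ι : Type} [Fintype ι] [DecidableEq ι]

theorem single_eq (i : ι) (u : M2) : Gate.op (Gate.single i u) = prodOp (atSite i u) := by
  ext x y
  show (if ∀ j, j ≠ i → x j = y j then u (x i) (y i) else 0) = ∏ j, atSite i u j (x j) (y j)
  by_cases h : ∀ j, j ≠ i → x j = y j
  · rw [if_pos h, Finset.prod_eq_single i]
    · rw [atSite_self]
    · intro j _ hj
      rw [atSite_ne i u hj, h j hj, Matrix.one_apply_eq]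
    · intro hi; exact absurd (Finset.mem_univ i) hi
  · rw [if_neg h]
    push Not at h
    obtain ⟨j, hj, hxy⟩ := h
    symm
    apply Finset.prod_eq_zero (Finset.mem_univ j)
    rw [atSite_ne i u hj, Matrix.one_apply_ne hxy]

/-- the basis vector `|1⟩` -/
def e1 : Bool → ℂ := fun b => if b then 1 else 0

/-- the basis vector `|0⟩` -/
def e0 : Bool → ℂ := fun b => if b then 0 else 1

/-- the vector `|-⟩` -/
noncomputable def vm : Bool → ℂ :=
  fun b => if b then -(((Real.sqrt 2)⁻¹ : ℝ) : ℂ) else (((Real.sqrt 2)⁻¹ : ℝ) : ℂ)

theorem pr_e1 : Pr (ketbra e1 e1) := ⟨e1, by simp [nsq, e1], rfl⟩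

theorem pr_e0 : Pr (ketbra e0 e0) := ⟨e0, by simp [nsq, e0], rfl⟩

theorem sqrt_two_inv_sq : ((Real.sqrt 2)⁻¹ : ℝ) * (Real.sqrt 2)⁻¹ = 1 / 2 := by
  rw [← mul_inv, Real.mul_self_sqrt (by norm_num)]
  norm_num

theorem pr_vm : Pr (ketbra vm vm) := by
  refine ⟨vm, ?_, rfl⟩
  have h := sqrt_two_inv_sq
  have h0 : (0 : ℝ) ≤ (Real.sqrt 2)⁻¹ := by positivity
  simp only [nsq, vm, if_true, norm_neg, Complex.norm_real, Real.norm_of_nonneg h0]
  simp only [Bool.false_eq_true, if_false, Complex.norm_real, Real.norm_of_nonneg h0]
  nlinarith

theorem e1_apply (c d : Bool) : ketbra e1 e1 c d = if c = true ∧ d = true then 1 else 0 := by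
  cases c <;> cases d <;> simp [ketbra_apply, e1]

theorem e0_apply (c d : Bool) : ketbra e0 e0 c d = if c = false ∧ d = false then 1 else 0 := by
  cases c <;> cases d <;> simp [ketbra_apply, e0]

theorem vm_apply (c d : Bool) : ketbra vm vm c d = if c = d then 1 / 2 else -(1 / 2) := by
  have h : (((Real.sqrt 2)⁻¹ : ℝ) : ℂ) * (((Real.sqrt 2)⁻¹ : ℝ) : ℂ) = 1 / 2 := by
    rw [← Complex.ofReal_mul, sqrt_two_inv_sq]
    norm_num
  cases c <;> cases d <;>
    simp only [ketbra_apply, vm, if_true, Bool.false_eq_true, if_false, star_neg,
      Complex.star_def, Complex.conj_ofReal, neg_mul, mul_neg, neg_neg, h, reduceCtorEq]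

/-- the site projectors of a Toffoli gate -/
noncomputable def tofQ (S : Finset ι) (b : ι) : ι → M2 :=
  fun j => if j ∈ S then ketbra e1 e1 else if j = b then ketbra vm vm else 1

theorem tof_valid (S : Finset ι) (b : ι) : ReflValid (insert b S, tofQ S b) := by
  constructor
  · intro j hj
    simp only [tofQ]
    by_cases h1 : j ∈ S
    · simp only [h1, if_true]; exact pr_e1
    · have h2 : j = b := by
        rcases Finset.mem_insert.1 hj with h | h
        · exact h
        · exact absurd h h1
      rw [if_neg h1, if_pos h2]
      exact pr_vm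
  · intro j hj
    have h1 : j ∉ S := fun h => hj (Finset.mem_insert_of_mem h)
    have h2 : j ≠ b := fun h => hj (h ▸ Finset.mem_insert_self _ _)
    simp only [tofQ, h1, h2, if_false]

theorem toffoli_eq (S : Finset ι) (b : ι) (hb : b ∉ S) :
    Gate.op (Gate.toffoli S b) = reflOp (insert b S, tofQ S b) := by
  ext x y
  show (if x = toffoliMap S b y then (1 : ℂ) else 0)
    = (1 : Op ι) x y - (2 : ℂ) * ∏ j, tofQ S b j (x j) (y j)
  rw [Matrix.one_apply]
  by_cases hoff : ∀ j, j ≠ b → x j = y j
  · by_cases hctl : ∀ j ∈ S, y j = true
    · have hprod : ∏ j, tofQ S b j (x j) (y j) = ketbra vm vm (x b) (y b) := by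
        rw [Finset.prod_eq_single b]
        · simp only [tofQ, hb, if_false, if_true]
        · intro j _ hj
          by_cases hjS : j ∈ S
          · simp only [tofQ, hjS, if_true, e1_apply, hoff j hj, hctl j hjS, and_self]
          · simp only [tofQ, hjS, hj, if_false, hoff j hj, Matrix.one_apply_eq]
        · intro hi; exact absurd (Finset.mem_univ b) hi
      have hmap : toffoliMap S b y = Function.update y b (!y b) := by
        unfold toffoliMap
        rw [decide_eq_true hctl, Bool.xor_true]
      rw [hprod, hmap, vm_apply]
      by_cases hxb : x b = y b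
      · have hxy : x = y := by
          funext j
          by_cases hj : j = b
          · rw [hj, hxb]
          · exact hoff j hj
        have hne : x ≠ Function.update y b (!y b) := by
          intro h
          have := congrFun h b
          rw [Function.update_self, hxb] at this
          cases hyb : y b <;> simp [hyb] at this
        rw [if_neg hne, if_pos hxy, if_pos hxb]
        norm_num
      · have hxy : x ≠ y := fun h => hxb (by rw [h])
        have heq : x = Function.update y b (!y b) := by
          funext j
          by_cases hj : j = b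
          · subst hj
            rw [Function.update_self]
            cases hx : x j <;> cases hy : y j <;> simp_all
          · rw [Function.update_of_ne hj]
            exact hoff j hj
        rw [if_pos heq, if_neg hxy, if_neg hxb]
        norm_num
    · have hmap : toffoliMap S b y = y := by
        unfold toffoliMap
        rw [decide_eq_false hctl, Bool.xor_false, Function.update_eq_self]
      push Not at hctl
      obtain ⟨j, hjS, hyj⟩ := hctl
      have hprod : ∏ j, tofQ S b j (x j) (y j) = 0 := by
        apply Finset.prod_eq_zero (Finset.mem_univ j)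
        simp only [tofQ, hjS, if_true, e1_apply]
        rw [if_neg]
        exact fun h => hyj h.2
      rw [hprod, hmap]
      simp
  · push Not at hoff
    obtain ⟨j, hj, hxy⟩ := hoff
    have h1 : x ≠ y := fun h => hxy (by rw [h])
    have h2 : x ≠ toffoliMap S b y := by
      intro h
      have := congrFun h j
      unfold toffoliMap at this
      rw [Function.update_of_ne hj] at this
      exact hxy this
    have hprod : ∏ j, tofQ S b j (x j) (y j) = 0 := by
      apply Finset.prod_eq_zero (Finset.mem_univ j)
      by_cases hjS : j ∈ S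
      · simp only [tofQ, hjS, if_true, e1_apply]
        rw [if_neg]
        rintro ⟨h3, h4⟩
        exact hxy (h3.trans h4.symm)
      · simp only [tofQ, hjS, hj, if_false]
        exact Matrix.one_apply_ne hxy
    rw [if_neg h1, if_neg h2, hprod]
    simp

end Vale.Agent.Lib.P368
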