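import Vale.Agent.Lib.P368.Strong

/-! # Polarisation: off-diagonal rank-one product operators -/

namespace Vale.Agent.Lib.P368

open Matrix Finset

set_option linter.unusedSectionVars false

variable {ι : Type} [Fintype ι] [DecidableEq ι]

theorem ketbra_conjTranspose (x y : Bool → ℂ) : (ketbra x y)ᴴ = ketbra y x := by
  ext b c
  simp [ketbra_apply, Matrix.conjTranspose_apply, mul_comm]

theorem ip_conj (a b : Bool → ℂ) : star (ip a b) = ip b a := by
  simp [ip, mul_comm]

theorem norm_ip_sq_le (a b : Bool → ℂ) : ‖ip a b‖ ^ 2 ≤ nsq a * nsq b := by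
  have h1 : ‖ip a b‖ ≤ ‖a false‖ * ‖b false‖ + ‖a true‖ * ‖b true‖ := by
    unfold ip
    calc ‖star (a false) * b false + star (a true) * b true‖
        ≤ ‖star (a false) * b false‖ + ‖star (a true) * b true‖ := norm_add_le _ _
      _ = _ := by simp
  calc ‖ip a b‖ ^ 2 ≤ (‖a false‖ * ‖b false‖ + ‖a true‖ * ‖b true‖) ^ 2 :=
        pow_le_pow_left₀ (norm_nonneg _) h1 2
    _ ≤ nsq a * nsq b := cs_real _ _ _ _

/-- `|a⟩⟨b|` on the sites of `T`, the identity elsewhere -/
noncomputable def NOp (T : Finset ι) (a b : ι → Bool → ℂ) : Op ι :=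
  prodOp (fun j => if j ∈ T then ketbra (a j) (b j) else 1)

/-- Gram product -/
noncomputable def gram (T : Finset ι) (a b : ι → Bool → ℂ) : ℂ := ∏ j ∈ T, ip (a j) (b j)

/-- squared norm of a product vector -/
noncomputable def gnorm (T : Finset ι) (a : ι → Bool → ℂ) : ℝ := ∏ j ∈ T, nsq (a j)

theorem NOp_mul (T : Finset ι) (a b c d : ι → Bool → ℂ) :
    NOp T a b * NOp T c d = gram T b c • NOp T a d := by
  unfold NOp gram
  rw [prodOp_mul]
  have : (fun j => (if j ∈ T then ketbra (a j) (b j) else (1 : M2))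
      * (if j ∈ T then ketbra (c j) (d j) else 1))
      = fun j => (if j ∈ T then ip (b j) (c j) else 1)
        • (if j ∈ T then ketbra (a j) (d j) else (1 : M2)) := by
    funext j
    by_cases hj : j ∈ T
    · simp only [hj, if_true, ketbra_mul]
    · simp only [hj, if_false, one_mul, one_smul]
  rw [this, prodOp_smul]
  congr 1
  rw [Finset.prod_ite_mem, Finset.univ_inter]

theorem NOp_herm (T : Finset ι) (a b : ι → Bool → ℂ) : (NOp T a b)ᴴ = NOp T b a := by
  unfold NOp
  rw [prodOp_conjTranspose]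
  congr 1
  funext j
  by_cases hj : j ∈ T
  · simp only [hj, if_true, ketbra_conjTranspose]
  · simp only [hj, if_false, Matrix.conjTranspose_one]

theorem gram_conj (T : Finset ι) (a b : ι → Bool → ℂ) : star (gram T a b) = gram T b a := by
  unfold gram
  rw [star_prod]
  exact Finset.prod_congr rfl fun j _ => ip_conj _ _

theorem gram_self (T : Finset ι) (a : ι → Bool → ℂ) : gram T a a = (gnorm T a : ℂ) := by
  unfold gram gnorm
  push_cast
  exact Finset.prod_congr rfl fun j _ => ip_self _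

theorem gnorm_nonneg (T : Finset ι) (a : ι → Bool → ℂ) : 0 ≤ gnorm T a :=
  Finset.prod_nonneg fun _ _ => nsq_nonneg _

theorem gnorm_le_one (T : Finset ι) (a : ι → Bool → ℂ) (h : ∀ j ∈ T, nsq (a j) ≤ 1) :
    gnorm T a ≤ 1 :=
  Finset.prod_le_one (fun _ _ => nsq_nonneg _) h

theorem norm_gram_sq_le (T : Finset ι) (a b : ι → Bool → ℂ) :
    ‖gram T a b‖ ^ 2 ≤ gnorm T a * gnorm T b := by
  unfold gram gnorm
  rw [norm_prod, ← Finset.prod_pow, ← Finset.prod_mul_distrib]
  exact Finset.prod_le_prod (fun j _ => by positivity) fun j _ => norm_ip_sq_le _ _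

/-- the rank-one positive operator of the vector `x + ω y` -/
noncomputable def HOp (T : Finset ι) (x y : ι → Bool → ℂ) (ω : ℂ) : Op ι :=
  NOp T x x + star ω • NOp T x y + ω • NOp T y x + NOp T y y

/-- its squared norm -/
noncomputable def hnorm (T : Finset ι) (x y : ι → Bool → ℂ) (ω : ℂ) : ℝ :=
  gnorm T x + gnorm T y + 2 * (ω * gram T x y).re

theorem hnorm_cast (T : Finset ι) (x y : ι → Bool → ℂ) (ω : ℂ) :
    (hnorm T x y ω : ℂ) = gram T x x + gram T y y + ω * gram T x y + star ω * gram T y x := by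
  have h : star ω * gram T y x = star (ω * gram T x y) := by
    rw [star_mul', gram_conj]
  rw [h, gram_self, gram_self, add_assoc, Complex.star_def, Complex.add_conj]
  unfold hnorm
  push_cast
  ring

theorem hnorm_nonneg (T : Finset ι) (x y : ι → Bool → ℂ) (ω : ℂ) (hω : ‖ω‖ = 1) :
    0 ≤ hnorm T x y ω := by
  unfold hnorm
  have h1 : -‖ω * gram T x y‖ ≤ (ω * gram T x y).re :=
    (abs_le.1 (Complex.abs_re_le_norm _)).1
  rw [norm_mul, hω, one_mul] at h1
  have h2 := norm_gram_sq_le T x y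
  have h3 := gnorm_nonneg T x
  have h4 := gnorm_nonneg T y
  have h5 : ‖gram T x y‖ ≤ (gnorm T x + gnorm T y) / 2 := by
    apply abs_le_of_sq_le_sq' _ (by positivity) |>.2
    nlinarith [sq_nonneg (gnorm T x - gnorm T y)]
  linarith

theorem HOp_herm (T : Finset ι) (x y : ι → Bool → ℂ) (ω : ℂ) :
    (HOp T x y ω)ᴴ = HOp T x y ω := by
  unfold HOp
  simp only [Matrix.conjTranspose_add, Matrix.conjTranspose_smul, NOp_herm, star_star]
  abel

theorem HOp_sq (T : Finset ι) (x y : ι → Bool → ℂ) (ω : ℂ) (hω : star ω * ω = 1) :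
    HOp T x y ω * HOp T x y ω = (hnorm T x y ω : ℂ) • HOp T x y ω := by
  rw [hnorm_cast]
  unfold HOp
  simp only [add_mul, mul_add, smul_mul_assoc, mul_smul_comm, NOp_mul, smul_smul, smul_add]
  set gxx := gram T x x
  set gyy := gram T y y
  set gxy := gram T x y
  set gyx := gram T y x
  set A := NOp T x x
  set B := NOp T x y
  set C := NOp T y x
  set D := NOp T y y
  set w := star ω with hw
  have hA : gxx + ω * gxy + w * gyx + w * ω * gyy = gxx + gyy + ω * gxy + w * gyx := by
    rw [hω]; ring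
  have hB : w * gxx + gxy + w * w * gyx + w * gyy
      = (gxx + gyy + ω * gxy + w * gyx) * w := by
    have : gxy = w * ω * gxy := by rw [hω, one_mul]
    calc w * gxx + gxy + w * w * gyx + w * gyy
        = w * gxx + w * ω * gxy + w * w * gyx + w * gyy := by rw [← this]
      _ = _ := by ring
  have hC : ω * gxx + ω * ω * gxy + gyx + ω * gyy
      = (gxx + gyy + ω * gxy + w * gyx) * ω := by
    have : gyx = w * ω * gyx := by rw [hω, one_mul]
    calc ω * gxx + ω * ω * gxy + gyx + ω * gyy
        = ω * gxx + ω * ω * gxy + w * ω * gyx + ω * gyy := by rw [← this]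
      _ = _ := by ring
  have hD : w * ω * gxx + ω * gxy + w * gyx + gyy = gxx + gyy + ω * gxy + w * gyx := by
    rw [hω]; ring
  have lhs : gxx • A + (w * gyx) • A + (ω * gxx) • C + gyx • C
      + ((w * gxx) • B + (w * (w * gyx)) • B + (w * (ω * gxx)) • D + (w * gyx) • D)
      + ((ω * gxy) • A + (ω * (w * gyy)) • A + (ω * (ω * gxy)) • C + (ω * gyy) • C)
      + (gxy • B + (w * gyy) • B + (ω * gxy) • D + gyy • D)
      = (gxx + ω * gxy + w * gyx + w * ω * gyy) • A + (w * gxx + gxy + w * w * gyx + w * gyy) • B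
        + (ω * gxx + ω * ω * gxy + gyx + ω * gyy) • C
        + (w * ω * gxx + ω * gxy + w * gyx + gyy) • D := by module
  rw [hA, hB, hC, hD] at lhs
  rw [lhs]
  module

/-- the polarisation bound -/
theorem polar_bound (inp : ι → Bool) (θ : ℝ)
    (hθ : ∀ (P : Op ι) (c : ℝ), Pᴴ = P → P * P = (c : ℂ) • P → ‖Phi inp P‖ ≤ θ * |c|)
    (V : Op ι) (hV1 : Vᴴ = V) (hV2 : V * V = 1) (T : Finset ι) (x y : ι → Bool → ℂ)
    (hx : ∀ j ∈ T, nsq (x j) ≤ 1) (hy : ∀ j ∈ T, nsq (y j) ≤ 1) :
    ‖Phi inp (V * NOp T x y * V)‖ ≤ θ := by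
  have hθ0 : 0 ≤ θ := by
    have := hθ 1 1 (by simp) (by simp)
    have h2 := norm_nonneg (Phi inp (1 : Op ι))
    simp only [abs_one, mul_one] at this
    linarith
  set v := Phi inp (V * NOp T x y * V) with hv
  by_cases hv0 : v = 0
  · rw [hv0, norm_zero]; exact hθ0
  have hn : (‖v‖ : ℂ) ≠ 0 := by
    exact_mod_cast (norm_ne_zero_iff.2 hv0)
  set ω : ℂ := v / ‖v‖ with hω
  have hωn : ‖ω‖ = 1 := by
    rw [hω, norm_div, Complex.norm_real, norm_norm, div_self (norm_ne_zero_iff.2 hv0)]
  have hωs : star ω * ω = 1 := by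
    rw [Complex.star_def, Complex.conj_mul', hωn]; simp
  have hωv : star ω * v = ‖v‖ := by
    rw [hω, star_div₀, Complex.star_def, Complex.conj_ofReal, div_mul_eq_mul_div,
      Complex.conj_mul']
    field_simp
  have hv' : Phi inp (V * NOp T y x * V) = star v := by
    rw [hv, ← Phi_conjTranspose]
    congr 1
    rw [Matrix.conjTranspose_mul, Matrix.conjTranspose_mul, hV1, NOp_herm, Matrix.mul_assoc]
  have hωv' : ω * star v = ‖v‖ := by
    have := congrArg star hωv
    rw [star_mul', star_star] at this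
    rw [this]
    simp
  have key : ∀ η : ℂ, ‖η‖ = 1 → star η * η = 1 →
      ‖Phi inp (V * HOp T x y η * V)‖ ≤ θ * hnorm T x y η := by
    intro η h1 h2
    have := hθ (V * HOp T x y η * V) (hnorm T x y η)
      (by rw [Matrix.conjTranspose_mul, Matrix.conjTranspose_mul, hV1, HOp_herm,
        Matrix.mul_assoc])
      (by
        calc V * HOp T x y η * V * (V * HOp T x y η * V)
            = V * HOp T x y η * (V * V) * HOp T x y η * V := by simp only [Matrix.mul_assoc]
          _ = V * (HOp T x y η * HOp T x y η) * V := by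
              rw [hV2, Matrix.mul_one]; simp only [Matrix.mul_assoc]
          _ = _ := by rw [HOp_sq T x y η h2]; simp)
    rwa [abs_of_nonneg (hnorm_nonneg T x y η h1)] at this
  have k1 := key ω hωn hωs
  have k2 := key (-ω) (by rw [norm_neg, hωn]) (by rw [star_neg, neg_mul_neg, hωs])
  have expand : ∀ η : ℂ, Phi inp (V * HOp T x y η * V)
      = Phi inp (V * NOp T x x * V) + star η * v + η * star v + Phi inp (V * NOp T y y * V) := by
    intro η
    unfold HOp
    simp only [mul_add, add_mul, Matrix.mul_smul, Matrix.smul_mul, Phi_add, Phi_smul, hv']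
    rfl
  have hdiff : Phi inp (V * HOp T x y ω * V) - Phi inp (V * HOp T x y (-ω) * V)
      = ((4 * ‖v‖ : ℝ) : ℂ) := by
    rw [expand, expand, star_neg]
    have e1 : -star ω * v = -(‖v‖ : ℂ) := by rw [neg_mul, hωv]
    have e2 : -ω * star v = -(‖v‖ : ℂ) := by rw [neg_mul, hωv']
    rw [hωv, hωv', e1, e2]
    push_cast
    ring
  have hsum : hnorm T x y ω + hnorm T x y (-ω) = 2 * (gnorm T x + gnorm T y) := by
    unfold hnorm
    rw [neg_mul, Complex.neg_re]
    ring
  have h4 : 4 * ‖v‖ ≤ θ * hnorm T x y ω + θ * hnorm T x y (-ω) := by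
    have : ‖((4 * ‖v‖ : ℝ) : ℂ)‖ = 4 * ‖v‖ := by
      rw [Complex.norm_real, Real.norm_of_nonneg (by positivity)]
    rw [← this, ← hdiff]
    exact (norm_sub_le _ _).trans (add_le_add k1 k2)
  rw [← mul_add, hsum] at h4
  have g1 := gnorm_le_one T x hx
  have g2 := gnorm_le_one T y hy
  nlinarith

end Vale.Agent.Lib.P368
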