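import Vale.Agent.Lib.P368.Defs

/-! # Product operators -/

namespace Vale.Agent.Lib.P368

open Matrix Finset

set_option linter.unusedSectionVars false

variable {ι : Type} [Fintype ι] [DecidableEq ι]

/-- Tensor product of one-qubit operators. -/
def prodOp (A : ι → M2) : Op ι := fun x y => ∏ i, A i (x i) (y i)

theorem prodOp_apply (A : ι → M2) (x y : ι → Bool) : prodOp A x y = ∏ i, A i (x i) (y i) := rfl

theorem prodOp_mul (A B : ι → M2) : prodOp A * prodOp B = prodOp (fun i => A i * B i) := by
  ext x y
  simp only [Matrix.mul_apply, prodOp_apply]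
  rw [Finset.prod_univ_sum, Fintype.piFinset_univ]
  simp only [Finset.prod_mul_distrib]

theorem prodOp_one : prodOp (fun _ : ι => (1 : M2)) = 1 := by
  ext x y
  simp only [prodOp_apply, Matrix.one_apply]
  rw [Finset.prod_ite_zero]
  by_cases h : x = y
  · subst h; simp
  · have : ¬ ∀ i ∈ (Finset.univ : Finset ι), x i = y i := by
      intro h'
      exact h (funext fun i => h' i (Finset.mem_univ i))
    rw [if_neg this, if_neg h]

theorem prodOp_conjTranspose (A : ι → M2) : (prodOp A)ᴴ = prodOp (fun i => (A i)ᴴ) := by
  ext x y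
  simp [prodOp_apply, Matrix.conjTranspose_apply]

theorem prodOp_commute {A B : ι → M2} (h : ∀ i, Commute (A i) (B i)) :
    Commute (prodOp A) (prodOp B) := by
  show prodOp A * prodOp B = prodOp B * prodOp A
  rw [prodOp_mul, prodOp_mul]
  congr 1
  funext i
  exact h i

theorem prodOp_smul (c : ι → ℂ) (A : ι → M2) :
    prodOp (fun i => c i • A i) = (∏ i, c i) • prodOp A := by
  ext x y
  simp [prodOp_apply, Finset.prod_mul_distrib]

end Vale.Agent.Lib.P368
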