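import Vale.Agent.Lib.P368.Site

/-! # The signed ensemble functional, reflections and the block factorisation -/

namespace Vale.Agent.Lib.P368

open Matrix Finset

set_option linter.unusedSectionVars false

variable {ι : Type} [Fintype ι] [DecidableEq ι]

/-- coefficient of the basis state `z` in the signed ensemble -/
noncomputable def coef (inp : ι → Bool) (z : ι → Bool) : ℝ := ∏ j, wt (inp j) (z j)

/-- the signed ensemble functional -/
noncomputable def Phi (inp : ι → Bool) (M : Op ι) : ℂ := ∑ z, (coef inp z : ℂ) * M z z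

theorem Phi_prodOp (inp : ι → Bool) (B : ι → M2) :
    Phi inp (prodOp B) = ∏ j, str (inp j) (B j) := by
  unfold Phi str coef
  rw [Finset.prod_univ_sum, Fintype.piFinset_univ]
  refine Finset.sum_congr rfl fun z _ => ?_
  rw [prodOp_apply, Finset.prod_mul_distrib]
  push_cast
  rfl

theorem Phi_add (inp : ι → Bool) (M N : Op ι) : Phi inp (M + N) = Phi inp M + Phi inp N := by
  simp [Phi, mul_add, Finset.sum_add_distrib]

theorem Phi_sub (inp : ι → Bool) (M N : Op ι) : Phi inp (M - N) = Phi inp M - Phi inp N := by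
  simp [Phi, mul_sub, Finset.sum_sub_distrib]

theorem Phi_smul (inp : ι → Bool) (c : ℂ) (M : Op ι) : Phi inp (c • M) = c * Phi inp M := by
  simp only [Phi, Matrix.smul_apply, smul_eq_mul, Finset.mul_sum]
  refine Finset.sum_congr rfl fun z _ => ?_
  ring

theorem sum_coef (inp : ι → Bool) :
    ∑ z, coef inp z = ∏ j, (∑ b : Bool, wt (inp j) b) := by
  unfold coef
  rw [Finset.prod_univ_sum, Fintype.piFinset_univ]

theorem sum_coef_eq_zero (inp : ι → Bool) (j : ι) (hj : inp j = true) :
    ∑ z, coef inp z = 0 := by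
  rw [sum_coef]
  apply Finset.prod_eq_zero (Finset.mem_univ j)
  simp [wt, hj]

theorem sum_abs_coef (inp : ι → Bool) : ∑ z, |coef inp z| = 1 := by
  have : ∀ z, |coef inp z| = ∏ j, |wt (inp j) (z j)| := fun z => by
    unfold coef
    rw [Finset.abs_prod]
  simp only [this]
  have h2 := Finset.prod_univ_sum (fun _ : ι => (Finset.univ : Finset Bool))
    (fun j b => |wt (inp j) b|)
  rw [Fintype.piFinset_univ] at h2
  rw [← h2]
  apply Finset.prod_eq_one
  intro j _
  cases inp j
  · simp [wt]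
  · simp only [wt, Fintype.sum_bool, if_true]
    norm_num [abs_of_pos]

/-- the diagonal entries of a Hermitian idempotent lie in the disc of diameter `[0,1]` -/
theorem diag_proj {κ : Type} [Fintype κ] (P : Matrix κ κ ℂ) (h1 : Pᴴ = P) (h2 : P * P = P)
    (z : κ) : ‖P z z - 1 / 2‖ ≤ 1 / 2 := by
  have e1 : P z z = ((∑ w, ‖P z w‖ ^ 2 : ℝ) : ℂ) := by
    have : P z z = (P * P) z z := by rw [h2]
    rw [this, Matrix.mul_apply]
    push_cast
    refine Finset.sum_congr rfl fun w _ => ?_
    have : P w z = star (P z w) := by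
      conv_lhs => rw [← h1]
      rfl
    rw [this, ← Complex.mul_conj']
    rfl
  set p : ℝ := ∑ w, ‖P z w‖ ^ 2 with hp
  have e2 : ‖P z z‖ ^ 2 ≤ p :=
    Finset.single_le_sum (f := fun w => ‖P z w‖ ^ 2) (fun w _ => by positivity)
      (Finset.mem_univ z)
  have e3 : 0 ≤ p := Finset.sum_nonneg fun w _ => by positivity
  have e4 : ‖P z z‖ = p := by rw [e1, Complex.norm_real, Real.norm_of_nonneg e3]
  rw [e4] at e2
  have e5 : p ≤ 1 := by nlinarith
  have e6 : P z z - 1 / 2 = ((p - 1 / 2 : ℝ) : ℂ) := by rw [e1]; push_cast; ring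
  rw [e6, Complex.norm_real, Real.norm_eq_abs, abs_le]
  constructor <;> linarith

/-- the functional of a Hermitian idempotent is at most one -/
theorem norm_Phi_proj_le_one (inp : ι → Bool) (P : Op ι) (h1 : Pᴴ = P) (h2 : P * P = P) :
    ‖Phi inp P‖ ≤ 1 := by
  unfold Phi
  calc ‖∑ z, (coef inp z : ℂ) * P z z‖ ≤ ∑ z, ‖(coef inp z : ℂ) * P z z‖ := norm_sum_le _ _
    _ ≤ ∑ z, |coef inp z| * 1 := by
        refine Finset.sum_le_sum fun z _ => ?_
        rw [norm_mul, Complex.norm_real, Real.norm_eq_abs]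
        refine mul_le_mul_of_nonneg_left ?_ (abs_nonneg _)
        have := diag_proj P h1 h2 z
        calc ‖P z z‖ = ‖(P z z - 1 / 2) + 1 / 2‖ := by ring_nf
          _ ≤ ‖P z z - 1 / 2‖ + ‖(1 / 2 : ℂ)‖ := norm_add_le _ _
          _ ≤ 1 / 2 + 1 / 2 := by
              refine add_le_add this ?_
              simp
          _ = 1 := by norm_num
    _ = 1 := by simp [sum_abs_coef]

/-- with at least one signed site the functional of a Hermitian idempotent is at most `1/2` -/
theorem norm_Phi_proj_le_half (inp : ι → Bool) (j : ι) (hj : inp j = true) (P : Op ι)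
    (h1 : Pᴴ = P) (h2 : P * P = P) : ‖Phi inp P‖ ≤ 1 / 2 := by
  have h0 : Phi inp P = ∑ z, (coef inp z : ℂ) * (P z z - 1 / 2) := by
    unfold Phi
    simp only [mul_sub, Finset.sum_sub_distrib]
    rw [← Finset.sum_mul]
    have := sum_coef_eq_zero inp j hj
    have h' : ∑ z, (coef inp z : ℂ) = 0 := by exact_mod_cast this
    rw [h']
    simp
  rw [h0]
  calc ‖∑ z, (coef inp z : ℂ) * (P z z - 1 / 2)‖
      ≤ ∑ z, ‖(coef inp z : ℂ) * (P z z - 1 / 2)‖ := norm_sum_le _ _
    _ ≤ ∑ z, |coef inp z| * (1 / 2) := by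
        refine Finset.sum_le_sum fun z _ => ?_
        rw [norm_mul, Complex.norm_real, Real.norm_eq_abs]
        exact mul_le_mul_of_nonneg_left (diag_proj P h1 h2 z) (abs_nonneg _)
    _ = 1 / 2 := by rw [← Finset.sum_mul, sum_abs_coef]; norm_num

end Vale.Agent.Lib.P368
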