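import Vale.Agent.Lib.P368.ProdOp

/-! # One-qubit facts -/

namespace Vale.Agent.Lib.P368

open Matrix Finset

/-- squared norm of a qubit vector -/
noncomputable def nsq (x : Bool → ℂ) : ℝ := ‖x false‖ ^ 2 + ‖x true‖ ^ 2

/-- the operator `|x⟩⟨y|` -/
noncomputable def ketbra (x y : Bool → ℂ) : M2 := fun b c => x b * star (y c)

/-- inner product -/
noncomputable def ip (y x : Bool → ℂ) : ℂ := star (y false) * x false + star (y true) * x true

theorem ketbra_apply (x y : Bool → ℂ) (b c : Bool) : ketbra x y b c = x b * star (y c) := rfl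

theorem nsq_nonneg (x : Bool → ℂ) : 0 ≤ nsq x := by unfold nsq; positivity

theorem ketbra_mul (x y x' y' : Bool → ℂ) :
    ketbra x y * ketbra x' y' = ip y x' • ketbra x y' := by
  ext b c
  simp only [Matrix.mul_apply, Fintype.sum_bool, ketbra_apply, ip, Matrix.smul_apply, smul_eq_mul]
  ring

theorem cs_real (a b c d : ℝ) : (a * c + b * d) ^ 2 ≤ (a ^ 2 + b ^ 2) * (c ^ 2 + d ^ 2) := by
  nlinarith [sq_nonneg (a * d - b * c)]

theorem cs_le_one {a b c d : ℝ} (h1 : a ^ 2 + b ^ 2 ≤ 1) (h2 : c ^ 2 + d ^ 2 ≤ 1) :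
    a * c + b * d ≤ 1 := by
  nlinarith [sq_nonneg (a - c), sq_nonneg (b - d)]

theorem norm_ip_le {x y : Bool → ℂ} (hx : nsq x ≤ 1) (hy : nsq y ≤ 1) : ‖ip y x‖ ≤ 1 := by
  unfold ip
  calc ‖star (y false) * x false + star (y true) * x true‖
      ≤ ‖star (y false) * x false‖ + ‖star (y true) * x true‖ := norm_add_le _ _
    _ = ‖y false‖ * ‖x false‖ + ‖y true‖ * ‖x true‖ := by simp
    _ ≤ 1 := cs_le_one hy hx

theorem nsq_smul (c : ℂ) (x : Bool → ℂ) : nsq (c • x) = ‖c‖ ^ 2 * nsq x := by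
  simp only [nsq, Pi.smul_apply, smul_eq_mul, norm_mul]
  ring

theorem ketbra_smul_left (c : ℂ) (x y : Bool → ℂ) : ketbra (c • x) y = c • ketbra x y := by
  ext b d
  simp only [ketbra_apply, Pi.smul_apply, smul_eq_mul, Matrix.smul_apply]
  ring

/-- rank-one contractions -/
def K1 (X : M2) : Prop := ∃ x y : Bool → ℂ, nsq x ≤ 1 ∧ nsq y ≤ 1 ∧ X = ketbra x y

/-- rank-one projectors -/
def Pr (X : M2) : Prop := ∃ x : Bool → ℂ, nsq x = 1 ∧ X = ketbra x x

theorem Pr.k1 {X : M2} (h : Pr X) : K1 X := by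
  obtain ⟨x, hx, rfl⟩ := h
  exact ⟨x, x, hx.le, hx.le, rfl⟩

theorem K1.mul {X Y : M2} (hX : K1 X) (hY : K1 Y) : K1 (X * Y) := by
  obtain ⟨x, y, hx, hy, rfl⟩ := hX
  obtain ⟨x', y', hx', hy', rfl⟩ := hY
  refine ⟨ip y x' • x, y', ?_, hy', ?_⟩
  · rw [nsq_smul]
    have h1 := norm_ip_le hx' hy
    have h2 : ‖ip y x'‖ ^ 2 ≤ 1 := by
      have := norm_nonneg (ip y x')
      nlinarith
    have h3 := nsq_nonneg x
    nlinarith
  · rw [ketbra_mul, ketbra_smul_left]

theorem ip_self (x : Bool → ℂ) : ip x x = (nsq x : ℂ) := by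
  unfold ip nsq
  push_cast
  rw [← Complex.conj_mul', ← Complex.conj_mul']
  simp

theorem Pr.idem {X : M2} (h : Pr X) : X * X = X := by
  obtain ⟨x, hx, rfl⟩ := h
  rw [ketbra_mul, ip_self, hx]
  simp

theorem Pr.herm {X : M2} (h : Pr X) : Xᴴ = X := by
  obtain ⟨x, hx, rfl⟩ := h
  ext b c
  simp [ketbra_apply, Matrix.conjTranspose_apply, mul_comm]

theorem nsq_eq_dot (x : Bool → ℂ) : (nsq x : ℂ) = star x ⬝ᵥ x := by
  rw [← ip_self]
  simp [ip, dotProduct, Fintype.sum_bool, add_comm]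

theorem ketbra_eq (x y : Bool → ℂ) : ketbra x y = Matrix.vecMulVec x (star y) := by
  ext b c
  simp [ketbra_apply, Matrix.vecMulVec_apply]

theorem Pr.conj {X u : M2} (h : Pr X) (hu : u ∈ Matrix.unitaryGroup Bool ℂ) :
    Pr (uᴴ * X * u) := by
  obtain ⟨x, hx, rfl⟩ := h
  refine ⟨uᴴ *ᵥ x, ?_, ?_⟩
  · have h1 : (nsq (uᴴ *ᵥ x) : ℂ) = (nsq x : ℂ) := by
      rw [nsq_eq_dot, nsq_eq_dot, Matrix.star_mulVec, Matrix.conjTranspose_conjTranspose,
        ← Matrix.dotProduct_mulVec, Matrix.mulVec_mulVec]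
      have : u * uᴴ = 1 := by
        have := (Matrix.mem_unitaryGroup_iff).1 hu
        simpa [Matrix.star_eq_conjTranspose] using this
      rw [this, Matrix.one_mulVec]
    have h2 : nsq (uᴴ *ᵥ x) = nsq x := by exact_mod_cast h1
    rw [h2, hx]
  · rw [ketbra_eq, ketbra_eq, Matrix.star_mulVec, Matrix.conjTranspose_conjTranspose,
      Matrix.mul_vecMulVec, Matrix.vecMulVec_mul]

/-- the weights of the signed initial ensemble: `(1/2, -1/2)` on an input qubit, `(1, 0)` on an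
ancilla -/
noncomputable def wt (inp : Bool) (b : Bool) : ℝ :=
  if inp then (if b then -(1 / 2) else 1 / 2) else (if b then 0 else 1)

/-- the site functional -/
noncomputable def str (inp : Bool) (X : M2) : ℂ := ∑ b : Bool, (wt inp b : ℂ) * X b b

/-- the termwise bound for a site -/
noncomputable def hw (inp : Bool) : ℝ := if inp then 1 / 2 else 1

theorem str_one (inp : Bool) : str inp 1 = if inp then 0 else 1 := by
  cases inp <;> simp [str, wt]

theorem norm_str_one_le (inp : Bool) : ‖str inp 1‖ ≤ hw inp := by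
  cases inp <;> simp [str_one, hw]

theorem K1.norm_str_le {X : M2} (h : K1 X) (inp : Bool) : ‖str inp X‖ ≤ hw inp := by
  obtain ⟨x, y, hx, hy, rfl⟩ := h
  have hcs : ‖x false‖ * ‖y false‖ + ‖x true‖ * ‖y true‖ ≤ 1 := cs_le_one hx hy
  have n1 := norm_nonneg (x false)
  have n2 := norm_nonneg (y false)
  have n3 := norm_nonneg (x true)
  have n4 := norm_nonneg (y true)
  cases inp
  · simp only [str, wt, hw, Fintype.sum_bool, ketbra_apply]
    simp
    nlinarith [mul_nonneg n3 n4]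
  · simp only [str, wt, hw, Fintype.sum_bool, ketbra_apply]
    simp only [if_true]
    calc ‖((-(1 / 2) : ℝ) : ℂ) * (x true * star (y true))
          + (((1 / 2 : ℝ)) : ℂ) * (x false * star (y false))‖
        ≤ ‖((-(1 / 2) : ℝ) : ℂ) * (x true * star (y true))‖
          + ‖(((1 / 2 : ℝ)) : ℂ) * (x false * star (y false))‖ := norm_add_le _ _
      _ = 1 / 2 * (‖x true‖ * ‖y true‖) + 1 / 2 * (‖x false‖ * ‖y false‖) := by
          rw [norm_mul, norm_mul, norm_mul, norm_mul, Complex.norm_real, Complex.norm_real]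
          simp
      _ ≤ 1 / 2 := by linarith

end Vale.Agent.Lib.P368
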