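import Vale.Agent.Lib.P368.Corr

/-! # The block bound for arbitrary rank-one contraction sites (polarisation) -/

namespace Vale.Agent.Lib.P368

open Matrix Finset

set_option linter.unusedSectionVars false

variable {ι : Type} [Fintype ι] [DecidableEq ι]

/-- diagonal entries of a Hermitian matrix with `P * P = c • P` -/
theorem diag_scaled {κ : Type} [Fintype κ] (P : Matrix κ κ ℂ) (c : ℝ) (h1 : Pᴴ = P)
    (h2 : P * P = (c : ℂ) • P) (z : κ) : ‖P z z - (c / 2 : ℝ)‖ ≤ |c| / 2 := by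
  have hre : P z z = ((P z z).re : ℂ) := by
    have : star (P z z) = P z z := by
      conv_rhs => rw [← h1]
      rfl
    obtain ⟨r, hr⟩ := Complex.conj_eq_iff_real.1 this
    rw [hr]; simp
  set p : ℝ := (P z z).re with hp
  have e1 : ((c * p : ℝ) : ℂ) = ((∑ w, ‖P z w‖ ^ 2 : ℝ) : ℂ) := by
    have h3 : (P * P) z z = (c : ℂ) * P z z := by rw [h2]; simp
    rw [Matrix.mul_apply] at h3
    push_cast
    rw [← hre, ← h3]
    refine Finset.sum_congr rfl fun w _ => ?_
    have : P w z = star (P z w) := by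
      conv_lhs => rw [← h1]
      rfl
    rw [this, ← Complex.mul_conj']
    rfl
  have e1' : c * p = ∑ w, ‖P z w‖ ^ 2 := by exact_mod_cast e1
  have e2 : ‖P z z‖ ^ 2 ≤ ∑ w, ‖P z w‖ ^ 2 :=
    Finset.single_le_sum (f := fun w => ‖P z w‖ ^ 2) (fun w _ => by positivity)
      (Finset.mem_univ z)
  have e3 : ‖P z z‖ ^ 2 = p ^ 2 := by
    rw [hre, Complex.norm_real, Real.norm_eq_abs, sq_abs]
  have e4 : p ^ 2 ≤ c * p := by rw [e1', ← e3]; exact e2
  have e5 : P z z - (c / 2 : ℝ) = ((p - c / 2 : ℝ) : ℂ) := by rw [hre]; push_cast; ring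
  rw [e5, Complex.norm_real, Real.norm_eq_abs]
  have hsq : (p - c / 2) ^ 2 ≤ (|c| / 2) ^ 2 := by
    rw [div_pow, sq_abs]; nlinarith
  exact abs_le_of_sq_le_sq hsq (by positivity)

theorem norm_Phi_scaled_le (inp : ι → Bool) (P : Op ι) (c : ℝ) (h1 : Pᴴ = P)
    (h2 : P * P = (c : ℂ) • P) : ‖Phi inp P‖ ≤ |c| := by
  unfold Phi
  calc ‖∑ z, (coef inp z : ℂ) * P z z‖ ≤ ∑ z, ‖(coef inp z : ℂ) * P z z‖ := norm_sum_le _ _
    _ ≤ ∑ z, |coef inp z| * |c| := by
        refine Finset.sum_le_sum fun z _ => ?_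
        rw [norm_mul, Complex.norm_real, Real.norm_eq_abs]
        refine mul_le_mul_of_nonneg_left ?_ (abs_nonneg _)
        have := diag_scaled P c h1 h2 z
        calc ‖P z z‖ = ‖(P z z - (c / 2 : ℝ)) + (c / 2 : ℝ)‖ := by ring_nf
          _ ≤ ‖P z z - (c / 2 : ℝ)‖ + ‖((c / 2 : ℝ) : ℂ)‖ := norm_add_le _ _
          _ ≤ |c| / 2 + |c| / 2 := by
              refine add_le_add this ?_
              rw [Complex.norm_real, Real.norm_eq_abs, abs_div]
              simp
          _ = |c| := by ring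
    _ = |c| := by rw [← Finset.sum_mul, sum_abs_coef, one_mul]

theorem norm_Phi_scaled_le_half (inp : ι → Bool) (j : ι) (hj : inp j = true) (P : Op ι) (c : ℝ)
    (h1 : Pᴴ = P) (h2 : P * P = (c : ℂ) • P) : ‖Phi inp P‖ ≤ |c| / 2 := by
  have h0 : Phi inp P = ∑ z, (coef inp z : ℂ) * (P z z - (c / 2 : ℝ)) := by
    unfold Phi
    simp only [mul_sub, Finset.sum_sub_distrib]
    rw [← Finset.sum_mul]
    have := sum_coef_eq_zero inp j hj
    have h' : ∑ z, (coef inp z : ℂ) = 0 := by exact_mod_cast this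
    rw [h']
    simp
  rw [h0]
  calc ‖∑ z, (coef inp z : ℂ) * (P z z - (c / 2 : ℝ))‖
      ≤ ∑ z, ‖(coef inp z : ℂ) * (P z z - (c / 2 : ℝ))‖ := norm_sum_le _ _
    _ ≤ ∑ z, |coef inp z| * (|c| / 2) := by
        refine Finset.sum_le_sum fun z _ => ?_
        rw [norm_mul, Complex.norm_real, Real.norm_eq_abs]
        exact mul_le_mul_of_nonneg_left (diag_scaled P c h1 h2 z) (abs_nonneg _)
    _ = |c| / 2 := by rw [← Finset.sum_mul, sum_abs_coef, one_mul]

theorem Phi_conjTranspose (inp : ι → Bool) (M : Op ι) : Phi inp Mᴴ = star (Phi inp M) := by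
  unfold Phi
  rw [star_sum]
  refine Finset.sum_congr rfl fun z _ => ?_
  rw [Matrix.conjTranspose_apply, star_mul']
  simp

end Vale.Agent.Lib.P368
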