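import Vale.Agent.Lib.P368.Cov

/-! # The sharp bound for one block -/

namespace Vale.Agent.Lib.P368

open Matrix Finset

set_option linter.unusedSectionVars false

variable {κ : Type} [Fintype κ] [DecidableEq κ]

theorem site_sq_le (inp : Bool) (r : Bool → ℂ) (hr : nsq r = 1) :
    wt inp false ^ 2 * ‖r false‖ ^ 2 + wt inp true ^ 2 * ‖r true‖ ^ 2 ≤ hw inp ^ 2 := by
  unfold nsq at hr
  cases inp
  · simp only [wt, hw]
    simp
    nlinarith [sq_nonneg ‖r true‖]
  · simp only [wt, hw]
    simp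
    nlinarith

theorem site_sq_nonneg (ω : Bool → ℝ) (r : Bool → ℂ) :
    0 ≤ ω false ^ 2 * ‖r false‖ ^ 2 + ω true ^ 2 * ‖r true‖ ^ 2 := by positivity

theorem site_awt_sq (inp : Bool) (r : Bool → ℂ) :
    awt inp false ^ 2 * ‖r false‖ ^ 2 + awt inp true ^ 2 * ‖r true‖ ^ 2
      = hw inp * (awt inp false * ‖r false‖ ^ 2 + awt inp true * ‖r true‖ ^ 2) := by
  cases inp
  · simp [awt, hw]
  · simp only [awt, hw]
    simp
    ring

theorem site_awt_bound (inp : Bool) (X : M2) (h : X = 1 ∨ Pr X) (h' : inp = true → Pr X) :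
    ‖strW (awt inp) X‖ ≤ hw inp := by
  cases inp
  · rcases h with rfl | ⟨x, hx, rfl⟩
    · simp [strW, awt, hw]
    · unfold nsq at hx
      simp only [strW, awt, hw, Fintype.sum_bool, ketbra_apply]
      simp
      nlinarith [sq_nonneg ‖x true‖, norm_nonneg (x false)]
  · obtain ⟨x, hx, rfl⟩ := h' rfl
    unfold nsq at hx
    have e : strW (awt true) (ketbra x x) = ((1 / 2 : ℝ) : ℂ) := by
      simp only [strW, awt, Fintype.sum_bool, ketbra_apply, if_true]
      have h1 : x true * star (x true) = ((‖x true‖ ^ 2 : ℝ) : ℂ) := by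
        push_cast
        exact Complex.mul_conj' _
      have h2 : x false * star (x false) = ((‖x false‖ ^ 2 : ℝ) : ℂ) := by
        push_cast
        exact Complex.mul_conj' _
      rw [h1, h2, ← mul_add, ← Complex.ofReal_add, add_comm, hx]
      simp
    rw [e, Complex.norm_real]
    simp [hw]

theorem full_block (inp : κ → Bool) (r : κ → Bool → ℂ) (hr : ∀ j, nsq (r j) = 1)
    (B : κ → M2) (hB : ∀ j, B j = 1 ∨ Pr (B j)) :
    ‖∏ j, str (inp j) (B j) - 2 * ∏ j, str (inp j) (ketbra (r j) (r j) * B j)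
      - 2 * ∏ j, str (inp j) (B j * ketbra (r j) (r j))
      + 4 * ∏ j, str (inp j) (ketbra (r j) (r j) * B j * ketbra (r j) (r j))‖
      ≤ 2 * ∏ j, hw (inp j) := by
  have h1 : ∀ j, (B j)ᴴ = B j := by
    intro j
    rcases hB j with h | h
    · rw [h, Matrix.conjTranspose_one]
    · exact h.herm
  have h2 : ∀ j, B j * B j = B j := by
    intro j
    rcases hB j with h | h
    · rw [h, one_mul]
    · exact h.idem
  set H : ℝ := ∏ j, hw (inp j) with hH
  have hH0 : 0 ≤ H := Finset.prod_nonneg fun j _ => hw_nonneg _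
  by_cases hc : ∃ j, inp j = true ∧ B j = 1
  · obtain ⟨j, hj1, hj2⟩ := hc
    have e0 : ∏ j, str (inp j) (B j) = 0 := by
      apply Finset.prod_eq_zero (Finset.mem_univ j)
      rw [hj2, str_one, hj1]
      simp
    have hf := fluct_bound (fun j => wt (inp j)) r hr B h1 h2 H hH0 (by
      have a1 : ∏ j, (wt (inp j) false ^ 2 * ‖r j false‖ ^ 2 + wt (inp j) true ^ 2 * ‖r j true‖ ^ 2)
          ≤ ∏ j, hw (inp j) ^ 2 :=
        Finset.prod_le_prod (fun j _ => site_sq_nonneg _ _) (fun j _ => site_sq_le _ _ (hr j))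
      rw [Finset.prod_pow] at a1
      nlinarith [sq_nonneg (∏ j, (wt (inp j) false * ‖r j false‖ ^ 2
        + wt (inp j) true * ‖r j true‖ ^ 2))])
    rw [e0]
    simp only [str_eq_strW]
    have e : ∀ a b c : ℂ, 0 - 2 * a - 2 * b + 4 * c = -2 * a - 2 * b + 4 * c := by
      intro a b c; ring
    rw [e]
    exact hf
  · push Not at hc
    have hPr : ∀ j, inp j = true → Pr (B j) := by
      intro j hj
      rcases hB j with h | h
      · exact absurd h (hc j hj)
      · exact h
    have hv : ReflValid ((Finset.univ : Finset κ), fun j => ketbra (r j) (r j)) :=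
      ⟨fun j _ => ⟨r j, hr j, rfl⟩, fun j hj => absurd (Finset.mem_univ j) hj⟩
    obtain ⟨p1, p2⟩ := conj_proj _ hv B h1 h2
    have hle := PhiW_abs_le (fun j => wt (inp j)) _ p1 p2
    rw [PhiW_conj, PhiW_conj] at hle
    simp only [abs_wt] at hle
    simp only [str_eq_strW]
    refine hle.trans ?_
    have hf := fluct_bound (fun j => awt (inp j)) r hr B h1 h2 (H / 2) (by positivity) (by
      simp only [site_awt_sq]
      rw [Finset.prod_mul_distrib, ← hH]
      nlinarith [sq_nonneg (∏ j, (awt (inp j) false * ‖r j false‖ ^ 2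
        + awt (inp j) true * ‖r j true‖ ^ 2) - H / 2)])
    have ha : ‖∏ j, strW (awt (inp j)) (B j)‖ ≤ H := by
      rw [norm_prod]
      exact Finset.prod_le_prod (fun j _ => norm_nonneg _)
        (fun j _ => site_awt_bound _ _ (hB j) (hPr j))
    have e : ∀ a b c d : ℂ, a - 2 * b - 2 * c + 4 * d = a + (-2 * b - 2 * c + 4 * d) := by
      intro a b c d; ring
    rw [e]
    refine (norm_add_le _ _).trans ?_
    linarith

variable {ι : Type} [Fintype ι] [DecidableEq ι]

/-- the sharp bound for a block all of whose sites carry the identity or a projector -/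
theorem vblock_sharp (inp : ι → Bool) (r : Finset ι × (ι → M2)) (hr : ReflValid r)
    (B : ι → M2) (hB : ∀ j ∈ r.1, B j = 1 ∨ Pr (B j)) :
    ‖vblock inp r B‖ ≤ 2 * ∏ j ∈ r.1, hw (inp j) := by
  choose x hx1 hx2 using fun j : r.1 => hr.1 j.1 j.2
  have h := full_block (κ := r.1) (fun j => inp j.1) x hx1 (fun j => B j.1)
    (fun j => hB j.1 j.2)
  simp only [← hx2] at h
  rw [Finset.prod_coe_sort r.1 (fun j => str (inp j) (B j)),
    Finset.prod_coe_sort r.1 (fun j => str (inp j) (r.2 j * B j)),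
    Finset.prod_coe_sort r.1 (fun j => str (inp j) (B j * r.2 j)),
    Finset.prod_coe_sort r.1 (fun j => str (inp j) (r.2 j * B j * r.2 j)),
    Finset.prod_coe_sort r.1 (fun j => hw (inp j))] at h
  exact h

/-- `2 ^ (-1/2)` -/
noncomputable def gah : ℝ := (1 / 2 : ℝ) ^ (1 / 2 : ℝ)

theorem gah_pos : 0 < gah := by unfold gah; positivity

theorem gah_sq : gah ^ 2 = 1 / 2 := by
  unfold gah
  rw [← Real.rpow_natCast, ← Real.rpow_mul (by norm_num)]
  norm_num

theorem gah_le_one : gah ≤ 1 := by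
  have h := gah_sq
  have h0 := gah_pos
  nlinarith

theorem half_le_gah : 1 / 2 ≤ gah := by
  have h := gah_sq
  have h1 := gah_le_one
  have h0 := gah_pos
  nlinarith

theorem numeric_block_sharp (m : ℕ) (v : ℝ) (h1 : v ≤ 1) (h2 : 1 ≤ m → v ≤ 1 / 2)
    (h3 : v ≤ 2 * (1 / 2) ^ m) : v ≤ gah ^ m := by
  have g0 := gah_pos
  have g1 := gah_le_one
  rcases Nat.eq_zero_or_pos m with rfl | hm
  · simpa using h1
  · by_cases h4 : m ≤ 2
    · have : gah ^ 2 ≤ gah ^ m := pow_le_pow_of_le_one g0.le g1 h4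
      rw [gah_sq] at this
      exact (h2 hm).trans this
    · push Not at h4
      refine h3.trans ?_
      have e : (1 / 2 : ℝ) ^ m = gah ^ m * gah ^ m := by
        rw [← gah_sq, ← pow_mul, ← pow_add]
        congr 1
        ring
      rw [e]
      have e2 : gah ^ m ≤ gah ^ 2 := pow_le_pow_of_le_one g0.le g1 h4.le
      rw [gah_sq] at e2
      have e6 : 0 ≤ gah ^ m := by positivity
      nlinarith

/-- the weight of a site in the sharp bound -/
noncomputable def gv (inp : Bool) : ℝ := if inp then gah else 1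

theorem gv_nonneg (inp : Bool) : 0 ≤ gv inp := by
  cases inp
  · simp [gv]
  · simp [gv, gah_pos.le]

theorem hw_le_gv (inp : Bool) : hw inp ≤ gv inp := by
  cases inp
  · simp [gv, hw]
  · simpa [gv, hw] using half_le_gah

theorem prod_gv (inp : ι → Bool) (T : Finset ι) :
    ∏ j ∈ T, gv (inp j) = gah ^ (T.filter (fun j => inp j = true)).card := by
  unfold gv
  rw [Finset.prod_ite]
  simp

theorem block_sharp_gen (inp : ι → Bool) (r : Finset ι × (ι → M2)) (hr : ReflValid r)
    (B : ι → M2) (hB : ∀ j ∈ r.1, B j = 1 ∨ K1 (B j)) :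
    ‖vblock inp r B‖ ≤ 9 * ∏ j ∈ r.1, gv (inp j) := by
  refine (vblock_termwise inp r hr B hB).trans ?_
  gcongr with j hj
  · exact fun j _ => hw_nonneg _
  · exact hw_le_gv _

theorem block_sharp_proj (inp : ι → Bool) (r : Finset ι × (ι → M2)) (hr : ReflValid r)
    (B : ι → M2) (hB : ∀ j ∈ r.1, B j = 1 ∨ Pr (B j)) :
    ‖vblock inp r B‖ ≤ ∏ j ∈ r.1, gv (inp j) := by
  rw [prod_gv]
  obtain ⟨h1, h2⟩ := vblock_proj inp r hr B hB
  have h3 := vblock_sharp inp r hr B hB
  rw [prod_hw] at h3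
  refine numeric_block_sharp _ _ h1 (fun hm => h2 ?_) h3
  obtain ⟨j, hj⟩ := Finset.card_pos.1 (Nat.lt_of_lt_of_le Nat.zero_lt_one hm)
  exact ⟨j, (Finset.mem_filter.1 hj).1, (Finset.mem_filter.1 hj).2⟩

end Vale.Agent.Lib.P368
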