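import Vale.Agent.Lib.P368.Tight
import Vale.Agent.Lib.P368.Corr

/-! # The sharp depth-two bound -/

namespace Vale.Agent.Lib.P368

open Matrix Finset

set_option linter.unusedSectionVars false

section general

variable {ι : Type} [Fintype ι] [DecidableEq ι]

theorem layer1_sharp (inp : ι → Bool) (o : ι) (B : ι → M2) (hB : Good o B)
    (l : List (Finset ι × (ι → M2))) (hl : rlistValid l) :
    ‖Phi inp (conjBy l (prodOp B))‖ ≤ 9 * gah ^ numInp inp := by
  rw [Phi_conjBy inp l hl.1 B]
  have h := Ev_bound inp o (fun j => gv (inp j)) (fun j => gv_nonneg _) B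
    (fun j => (site_bound0 (hB.site j) _).trans (hw_le_gv _)) l hl
    (fun r hr => by
      by_cases ho : o ∈ r.1
      · simp only [ho, if_true]
        exact block_sharp_gen inp r (hl.1 r hr) B (fun j _ => hB.site j)
      · simp only [ho, if_false, one_mul]
        exact block_sharp_proj inp r (hl.1 r hr) B
          (fun j hj => hB.1 j (fun h => ho (h ▸ hj))))
    Finset.univ (fun r _ => Finset.subset_univ _)
  simp only [Finset.mem_univ, if_true] at h
  rw [prod_gv] at h
  exact h

theorem top_sharp (inp : ι → Bool) (o : ι) (π : M2) (hπ : Pr π)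
    (l₁ l₂ : List (Finset ι × (ι → M2))) (h₁ : rlistValid l₁) (h₂ : rlistValid l₂) :
    ‖Phi inp (conjBy l₁ (conjBy l₂ (prodOp (atSite o π))))‖ ≤ 81 * gah ^ numInp inp := by
  set K := 9 * gah ^ numInp inp with hK
  have hK0 : 0 ≤ K := by have := gah_pos; positivity
  have hgood0 : Good o (atSite o π) :=
    ⟨fun j hj => Or.inl (atSite_ne o π hj), by rw [atSite_self]; exact hπ.k1⟩
  have goal : ‖Phi inp (conjBy l₁ (conjBy l₂ (prodOp (atSite o π))))‖ ≤ 9 * K := by
    induction l₂ with
    | nil =>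
      rw [conjBy_nil]
      have := layer1_sharp inp o _ hgood0 l₁ h₁
      linarith
    | cons r l ih =>
      have hr := h₂.1 r List.mem_cons_self
      have hl : rlistValid l :=
        ⟨fun s hs => h₂.1 s (List.mem_cons_of_mem _ hs), (List.pairwise_cons.1 h₂.2).2⟩
      have hd : ∀ s ∈ l, Disjoint r.1 s.1 := (List.pairwise_cons.1 h₂.2).1
      rw [conjBy_cons hr]
      by_cases ho : o ∈ r.1
      · have hone : ∀ s ∈ l, ∀ j ∈ s.1, r.2 j = 1 ∧ atSite o π j = 1 := by
          intro s hs j hj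
          have hjr : j ∉ r.1 := fun h => Finset.disjoint_left.1 (hd s hs) h hj
          exact ⟨hr.2 j hjr, atSite_ne o π (fun h => hjr (h ▸ ho))⟩
        rw [refl_conj_prodOp, conjBy_add, conjBy_sub, conjBy_sub, conjBy_smul, conjBy_smul,
          conjBy_smul, conj_fix l hl.1 _ (fun s hs j hj => (hone s hs j hj).2),
          conj_fix l hl.1 (fun j => r.2 j * atSite o π j)
            (fun s hs j hj => by simp only [(hone s hs j hj).1, (hone s hs j hj).2, mul_one]),
          conj_fix l hl.1 (fun j => atSite o π j * r.2 j)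
            (fun s hs j hj => by simp only [(hone s hs j hj).1, (hone s hs j hj).2, mul_one]),
          conj_fix l hl.1 (fun j => r.2 j * atSite o π j * r.2 j)
            (fun s hs j hj => by simp only [(hone s hs j hj).1, (hone s hs j hj).2, mul_one]),
          conjBy_add, conjBy_sub, conjBy_sub, conjBy_smul, conjBy_smul, conjBy_smul,
          Phi_add, Phi_sub, Phi_sub, Phi_smul, Phi_smul, Phi_smul]
        have hq : ∀ j, r.2 j = 1 ∨ Pr (r.2 j) := fun j => by
          by_cases hj : j ∈ r.1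
          · exact Or.inr (hr.1 j hj)
          · exact Or.inl (hr.2 j hj)
        have g1 : Good o (fun j => r.2 j * atSite o π j) :=
          ⟨fun j hj => by simp only [atSite_ne o π hj, mul_one]; exact hq j,
            by simp only [atSite_self]; exact (hr.1 o ho).k1.mul hπ.k1⟩
        have g2 : Good o (fun j => atSite o π j * r.2 j) :=
          ⟨fun j hj => by simp only [atSite_ne o π hj, one_mul]; exact hq j,
            by simp only [atSite_self]; exact hπ.k1.mul (hr.1 o ho).k1⟩
        have g3 : Good o (fun j => r.2 j * atSite o π j * r.2 j) :=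
          ⟨fun j hj => by simp only [atSite_ne o π hj, mul_one, hr.idem]; exact hq j,
            by simp only [atSite_self]; exact ((hr.1 o ho).k1.mul hπ.k1).mul (hr.1 o ho).k1⟩
        have b0 := layer1_sharp inp o _ hgood0 l₁ h₁
        have b1 := layer1_sharp inp o _ g1 l₁ h₁
        have b2 := layer1_sharp inp o _ g2 l₁ h₁
        have b3 := layer1_sharp inp o _ g3 l₁ h₁
        set a := Phi inp (conjBy l₁ (prodOp (atSite o π)))
        set b := Phi inp (conjBy l₁ (prodOp (fun j => r.2 j * atSite o π j)))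
        set c := Phi inp (conjBy l₁ (prodOp (fun j => atSite o π j * r.2 j)))
        set d := Phi inp (conjBy l₁ (prodOp (fun j => r.2 j * atSite o π j * r.2 j)))
        calc ‖a - 2 * b - 2 * c + 4 * d‖ ≤ ‖a - 2 * b - 2 * c‖ + ‖4 * d‖ := norm_add_le _ _
          _ ≤ (‖a - 2 * b‖ + ‖2 * c‖) + ‖4 * d‖ := by gcongr; exact norm_sub_le _ _
          _ ≤ ((‖a‖ + ‖2 * b‖) + ‖2 * c‖) + ‖4 * d‖ := by gcongr; exact norm_sub_le _ _
          _ = ‖a‖ + 2 * ‖b‖ + 2 * ‖c‖ + 4 * ‖d‖ := by simp
          _ ≤ 9 * K := by linarith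
      · rw [refl_commute hr (fun j hj => atSite_ne o π (fun h => ho (h ▸ hj)))]
        exact ih hl
  calc _ ≤ 9 * K := goal
    _ = 81 * gah ^ numInp inp := by rw [hK]; ring

theorem heis_sharp (inp : ι → Bool) (o : ι) (b : Bool) (u : ι → M2)
    (l₂ l₁ : List (Finset ι × (ι → M2))) (hu : LocalU u) (h₂ : rlistValid l₂)
    (h₁ : rlistValid l₁) :
    ‖Phi inp ((prodOp u * (rlistOp l₂ * rlistOp l₁))ᴴ
      * prodOp (atSite o (ketbra (eb b) (eb b))) * (prodOp u * (rlistOp l₂ * rlistOp l₁)))‖
      ≤ 81 * gah ^ numInp inp := by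
  have e1 : (prodOp u)ᴴ * prodOp (atSite o (ketbra (eb b) (eb b))) * prodOp u
      = prodOp (atSite o ((u o)ᴴ * ketbra (eb b) (eb b) * u o)) := by
    rw [prodOp_conjTranspose, prodOp_mul, prodOp_mul]
    congr 1
    funext j
    by_cases hj : j = o
    · subst hj
      rw [atSite_self, atSite_self]
    · rw [atSite_ne _ _ hj, atSite_ne _ _ hj, Matrix.mul_one, hu.star_mul j]
  have e2 : (prodOp u * (rlistOp l₂ * rlistOp l₁))ᴴ
      * prodOp (atSite o (ketbra (eb b) (eb b))) * (prodOp u * (rlistOp l₂ * rlistOp l₁))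
      = conjBy l₁ (conjBy l₂ (prodOp (atSite o ((u o)ᴴ * ketbra (eb b) (eb b) * u o)))) := by
    rw [← e1]
    simp only [conjBy, Matrix.conjTranspose_mul, Matrix.mul_assoc]
  rw [e2]
  exact top_sharp inp o _ ((pr_eb b).conj (hu o)) l₁ l₂ h₁ h₂

end general

theorem numInp_sum_sharp (n a : ℕ) : gah ^ numInp (fun j : Fin n ⊕ Fin a => Sum.isLeft j) = gah ^ n := by
  unfold numInp
  rw [← prod_gv, Fintype.prod_sum_type]
  simp [gv]

theorem gah_pow (n : ℕ) : gah ^ n = (2 : ℝ) ^ (-(n : ℝ) / 2) := by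
  unfold gah
  rw [← Real.rpow_natCast, ← Real.rpow_mul (by norm_num), one_div, Real.inv_rpow (by norm_num),
    ← Real.rpow_neg (by norm_num)]
  congr 1
  ring

/-- the sharp depth-two bound -/
theorem depth_two_sharp {n a : ℕ} (C : List (List (Gate (Fin n ⊕ Fin a))))
    (hC : circuitValid C) (hd : entanglingDepth C ≤ 2) (o : Fin n ⊕ Fin a) :
    |parityCorrelation C o| ≤ 162 * (2 : ℝ) ^ (-(n : ℝ) / 2) := by
  obtain ⟨u, l₂, l₁, hu, h₂, h₁, heq⟩ := circuit_nf_two C hC hd
  have h := corr_eq C o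
  rw [heq] at h
  have b0 := heis_sharp (fun j : Fin n ⊕ Fin a => Sum.isLeft j) o false u l₂ l₁ hu h₂ h₁
  have b1 := heis_sharp (fun j : Fin n ⊕ Fin a => Sum.isLeft j) o true u l₂ l₁ hu h₂ h₁
  rw [numInp_sum_sharp] at b0 b1
  have : |parityCorrelation C o| = ‖((parityCorrelation C o : ℝ) : ℂ)‖ := by
    rw [Complex.norm_real, Real.norm_eq_abs]
  rw [this, h, ← gah_pow]
  refine (norm_sub_le _ _).trans ?_
  linarith

end Vale.Agent.Lib.P368
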